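import Vale.Agent.P014T.Ts.Fr
import Vale.Agent.P014T.Kc.Lc

/-! # P014 T: smoothness of the actions, local constancy of the classes -/

set_option linter.all false

open scoped Classical

noncomputable section

namespace Vale.Agent.P014T.Ts

open Vale.Agent.P019P P025H492 P027M.K Vale.Agent.P004H.H666 Kc Pu Filter Polynomial

variable {k M : Type} [Field k] [Field M] [Algebra k M] {a b : ℚ} {Γ N : Subgroup (SL k M)}

/-- the pointwise stabiliser -/
def fxs (k : Type) [Field k] [Algebra k M] (Z : Set M) : Subgroup (SL k M) where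
  carrier := {y | ∀ u ∈ Z, y.1 u = u}
  one_mem' _ _ := rfl
  mul_mem' h h' u l := by rw [sl_mul, h' u l, h u l]
  inv_mem' {y} h u l := by rw [← h u l, sl_inv', h u l]

/-- neighbourhoods of the identity -/
def nb (k M : Type) [Field k] [Field M] [Algebra k M] : Filter (SL k M) where
  sets := {s | ∃ Z : Finset M, ∀ y ∈ fxs k (Z : Set M), y ∈ s}
  univ_sets := ⟨∅, fun _ _ => trivial⟩
  sets_of_superset := fun ⟨Z, h⟩ e => ⟨Z, fun y l => e (h y l)⟩
  inter_sets := fun ⟨Z, h⟩ ⟨Z', h'⟩ => ⟨Z ∪ Z', fun y l =>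
    ⟨h y fun u e => l u (by simp [show u ∈ Z from e]),
      h' y fun u e => l u (by simp [show u ∈ Z' from e])⟩⟩

theorem ev_nb {p : SL k M → Prop} :
    (∀ᶠ y in nb k M, p y) ↔ ∃ Z : Finset M, ∀ y ∈ fxs k (Z : Set M), p y := Iff.rfl

theorem nb_el (u : M) : ∀ᶠ y in nb k M, y.1 u = u := ⟨{u}, fun y h => h u (by simp)⟩

theorem nb_un (u : Un M) : ∀ᶠ y in nb k M, y • u = u := (nb_el (vv u)).mono fun _ h => vv_inj h

theorem nb_k (c : k) : ∀ᶠ y in nb k M, res0 y c = c := (nb_el (algebraMap k M c)).mono fun y h =>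
  (algebraMap k M).injective ((res0_spec y c).symm.trans h)

theorem nb_ep (e : Ep k a b) : ∀ᶠ y in nb k M, y • e = e := by
  rcases e with _ | ⟨c, d, n⟩
  · exact .of_forall fun _ => rfl
  · exact ((nb_k c).and (nb_k d)).mono fun y h =>
      mp_id (res0 y : k →+* k) (map_ratCast _ a) (map_ratCast _ b) n h.1 h.2

theorem nb_pm (e : Pm M a b) : ∀ᶠ y in nb k M, y • e = e := by
  rcases e with _ | ⟨c, d, n⟩
  · exact .of_forall fun _ => rfl
  · exact ((nb_el c).and (nb_el d)).mono fun y h => mp_id _ _ _ n h.1 h.2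

theorem nb_sep (x : SL k M) : ∀ᶠ y in nb k M, y = x → x = 1 := by
  by_cases h : x = 1
  · exact .of_forall fun _ _ => h
  obtain ⟨u, h⟩ := not_forall.1 fun e => h (sl_ext e)
  exact (nb_el u).mono fun y e e' => (h (e' ▸ e)).elim

theorem nb_bot [Finite N] : ∀ᶠ y in nb k M, y ∈ N → y = 1 :=
  (eventually_all.2 fun n : N => nb_sep n.1).mono fun y h l => h ⟨y, l⟩ rfl

theorem nb_comm [Finite N] (nz : ∀ x ∈ Γ, ∀ n ∈ N, x⁻¹ * n * x ∈ N) :
    ∀ᶠ y in nb k M, y ∈ Γ → ∀ n ∈ N, y * n = n * y := by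
  have : ∀ n n' : N, ∀ᶠ y in nb k M, n.1 * y = y * n' → n' = n := fun n n' => by
    by_cases h : n' = n
    · exact .of_forall fun _ _ => h
    obtain ⟨u, h⟩ := not_forall.1 fun e => h (Subtype.ext (sl_ext e))
    refine ((nb_el u).and (nb_el (n.1.1 u))).mono fun y e e' => (h (y.1.injective ?_)).elim
    rw [← sl_mul, ← e', sl_mul, e.1, e.2]
  refine (eventually_all.2 fun n => eventually_all.2 (this n)).mono fun y h l n l' => ?_
  have := congrArg (y * ·.1) (h ⟨n, l'⟩ ⟨_, nz y l n l'⟩ (by group))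
  simpa [← mul_assoc] using this.symm

variable [CFF k M]

theorem nb_pl (P : Plk k M) : ∀ᶠ y in nb k M, y • P = P := by
  obtain ⟨z, -, h1, h2⟩ := exists_exact (D := Finsupp.single P (2 * (gen k M : ℤ) + 1)) P
    (by rw [dg_sgl]; omega)
  refine (nb_el z).mono fun y e => not_not.1 fun l => ?_
  have := h1 (y • P)
  rw [← e, ord_sm, h2, Finsupp.single_eq_same, Finsupp.single_eq_of_ne l] at this
  omega

theorem nb_dv (d : Dv k M) : ∀ᶠ y in nb k M, y • d = d := by
  induction d using Finsupp.induction_linear with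
  | zero => exact .of_forall smul_zero
  | add d d' e e' => exact (e.and e').mono fun y h => by rw [smul_add, h.1, h.2]
  | single P n => exact (nb_pl P).mono fun y h => by rw [sm_single, h]

omit [CFF k M] in
theorem hom_ev {F : Type} [Field F] [Algebra F M] (φ : M ≃+* M) (p : F[X]) (x : M)
    (h : ∀ i ∈ p.support, φ (algebraMap F M (p.coeff i)) = algebraMap F M (p.coeff i)) :
    φ (aeval x p) = aeval (φ x) p := by
  simp only [aeval_def, eval₂_eq_sum, Polynomial.sum, map_sum, map_mul, map_pow]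
  exact Finset.sum_congr rfl fun i l => by rw [h i l]

/-- **smoothness** -/
theorem sm_nb [Finite N] (k1 : ∀ n ∈ N, res0 n = 1) {l : Filter (SL k M)}
    (h : ∀ f, (∀ n ∈ N, n.1 f = f) → ∀ᶠ x in l, x.1 f = f) {p : SL k M → Prop}
    (hp : ∀ᶠ y in nb k M, p y) : ∀ᶠ x in l, ∃ n ∈ N, p (x * n) := by
  obtain ⟨F, -, _, _, h0, h1, -⟩ := ex_fix k1
  obtain ⟨Z, hp⟩ := hp
  obtain ⟨γ, hγ⟩ := Field.exists_primitive_element F M
  have i : IsIntegral F γ := .of_finite _ _
  have : ∀ u : M, ∃ q : F[X], aeval γ q = u := fun u => by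
    have : u ∈ (IntermediateField.adjoin F {γ}).toSubalgebra := hγ ▸ trivial
    rw [IntermediateField.adjoin_simple_toSubalgebra_of_isAlgebraic i.isAlgebraic,
      Algebra.adjoin_singleton_eq_range_aeval] at this
    exact this
  choose q hq using this
  have c : ∀ q : F[X], ∀ᶠ x in l, ∀ i ∈ q.support,
      x.1 (algebraMap F M (q.coeff i)) = algebraMap F M (q.coeff i) := fun q =>
    (eventually_all_finset _).2 fun i _ => h _ ((h0 _).1 (q.coeff i).2)
  filter_upwards [c (minpoly F γ), (eventually_all_finset Z).2 fun u _ => c (q u)] with x e1 e2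
  obtain ⟨σ, e⟩ := minpoly.exists_algEquiv_of_root' i.isAlgebraic (x := (x⁻¹).1 γ) (by
    rw [← hom_ev _ _ _ fun i l => by rw [← e1 i l, sl_inv', e1 i l], minpoly.aeval, map_zero])
  refine ⟨_, h1 σ, hp _ fun u l => ?_⟩
  rw [← hq u, hom_ev _ _ _ fun i l' => by rw [sl_mul, autSL_apply, σ.commutes, e2 u l i l'],
    sl_mul, autSL_apply, e, sl_inv]

variable [CharZero k] (hD : 4 * a ^ 3 + 27 * b ^ 2 ≠ 0) {Y : Set (Plk k M)} {ξ : Pm M a b}

/-- **local constancy** -/
theorem Fm.lc (A : Fm Γ N Y) (hξ : Fx Γ ξ) (c : ∀ P ∉ Y, sq hD P ξ = 0) {m : ℕ} {ζ α β : Un M}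
    (Z : Ze Γ (dY Y) m ζ) {z : SL k M → Ep k a b} (s : Sym Γ N (dY Y) (SN hD N ξ) m ζ α β z)
    {l : Filter (SL k M)} (h : ∀ f, (∀ n ∈ N, n.1 f = f) → ∀ᶠ x in l, x.1 f = f) :
    ∀ᶠ x in l, x ∈ Γ → z x = 0 := by
  have := A.fin
  have F := A.frame hD hξ c
  obtain ⟨W, T, Q, v⟩ := s.van F
  have : ∀ᶠ y in nb k M, y ∈ Γ → z y = 0 := by
    filter_upwards [nb_comm A.nz, eventually_all.2 fun n : N => nb_un (W n), nb_un α, nb_un β,
      nb_dv T, nb_ep Q] with y e1 e2 e3 e4 e5 e6 l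
    exact v y l (e1 l) (fun n l' => e2 ⟨n, l'⟩) e3 e4 e5 e6
  exact (sm_nb A.k1 h this).mono fun x ⟨n, l, e⟩ l' => by
    rw [← s.geo F Z l' l, e (mul_mem l' (A.le l))]

end Vale.Agent.P014T.Ts
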