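import Vale.Agent.P014T.Kc.Sym
import Vale.Agent.P014T.Pu.Sp
import Vale.Agent.P027M.K.TT

/-! # P014 T: semilinear automorphisms act on units, places, divisors and points -/

set_option linter.all false

open scoped Classical

noncomputable section

namespace Vale.Agent.P014T.Ts

open Vale.Agent.P019P P025H492 P027M.K Vale.Agent.P004H.H666 Kc Pu

variable {k M M' M'' : Type} [Field k] [Field M] [Field M'] [Field M''] [Algebra k M]

/-- the units, written additively -/
def Un (M : Type) [Field M] : Type := Additive Mˣ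

instance : AddCommGroup (Un M) := inferInstanceAs (AddCommGroup (Additive Mˣ))

/-- the value of a unit -/
def vv (u : Un M) : M := (Additive.toMul (α := Mˣ) u : Mˣ)

/-- the unit with a given value -/
def un' (x : M) (h : x ≠ 0) : Un M := Additive.ofMul (Units.mk0 x h)

theorem vv_un (x : M) (h : x ≠ 0) : vv (un' x h) = x := rfl
theorem vv_ne (u : Un M) : vv u ≠ 0 := Units.ne_zero _
theorem vv_inj {u v : Un M} (h : vv u = vv v) : u = v := Units.ext h
theorem vv_add (u v : Un M) : vv (u + v) = vv u * vv v := rfl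
theorem vv_zero : vv (0 : Un M) = 1 := rfl
theorem vv_neg (u : Un M) : vv (-u) = (vv u)⁻¹ := Units.val_inv_eq_inv_val _
theorem vv_sub (u v : Un M) : vv (u - v) = vv u / vv v := Units.val_div_eq_div_val _ _
theorem vv_nsmul (n : ℕ) (u : Un M) : vv (n • u) = vv u ^ n := Units.val_pow_eq_pow_val _ _
theorem vv_zsmul (n : ℤ) (u : Un M) : vv (n • u) = vv u ^ n := Units.val_zpow_eq_zpow_val _ _

theorem vv_sum {ι : Type} (s : Finset ι) (u : ι → Un M) : vv (∑ i ∈ s, u i) = ∏ i ∈ s, vv (u i) := by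
  induction s using Finset.induction_on with
  | empty => rfl
  | insert i s h e => rw [Finset.sum_insert h, Finset.prod_insert h, vv_add, e]

/-- the map of units along a homomorphism -/
def mu (s : M →+* M') : Un M →+ Un M' := MonoidHom.toAdditive (Units.map (s : M →* M'))

theorem vv_mu (s : M →+* M') (u : Un M) : vv (mu s u) = s (vv u) := rfl

theorem mu_inj (s : M →+* M') : Function.Injective (mu s) := fun _ _ h =>
  vv_inj (s.injective (congrArg vv h))

instance : DistribMulAction (SL k M) (Un M) where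
  smul θ u := mu θ.1 u
  one_smul _ := rfl
  mul_smul _ _ _ := rfl
  smul_zero _ := map_zero _
  smul_add _ := map_add _

theorem vv_smul (θ : SL k M) (u : Un M) : vv (θ • u) = θ.1 (vv u) := rfl

theorem sl_inv (θ : SL k M) (x : M) : θ.1 ((θ⁻¹).1 x) = x := θ.1.apply_symm_apply x
theorem sl_inv' (θ : SL k M) (x : M) : (θ⁻¹).1 (θ.1 x) = x := θ.1.symm_apply_apply x
theorem sl_mul (θ θ' : SL k M) (x : M) : (θ * θ').1 x = θ.1 (θ'.1 x) := rfl
theorem sl_ext {θ θ' : SL k M} (h : ∀ x, θ.1 x = θ'.1 x) : θ = θ' := Subtype.ext (RingEquiv.ext h)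

theorem pl_ext {P Q : Plk k M} (h : ∀ x, x ∈ P.1 ↔ x ∈ Q.1) : P = Q :=
  Subtype.ext (ValuationSubring.ext _ _ h)

instance : MulAction (SL k M) (Plk k M) where
  smul θ P := plEquiv θ.1 (res0 θ) (res0_spec θ) P
  one_smul _ := pl_ext fun _ => Iff.rfl
  mul_smul _ _ _ := pl_ext fun _ => Iff.rfl

theorem mem_sm (θ : SL k M) (P : Plk k M) (x : M) : x ∈ (θ • P).1 ↔ (θ⁻¹).1 x ∈ P.1 := Iff.rfl

theorem sm_mem (θ : SL k M) (P : Plk k M) (x : M) : θ.1 x ∈ (θ • P).1 ↔ x ∈ P.1 := by
  rw [mem_sm, sl_inv']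

/-- divisors -/
abbrev Dv (k M : Type) [Field k] [Field M] [Algebra k M] : Type := Plk k M →₀ ℤ

instance : DistribMulAction (SL k M) (Dv k M) := Finsupp.comapDistribMulAction

theorem dv_sm (θ : SL k M) (d : Dv k M) (P : Plk k M) : (θ • d) P = d (θ⁻¹ • P) :=
  Finsupp.comapSMul_apply θ d P

theorem sm_single (θ : SL k M) (P : Plk k M) (n : ℤ) :
    θ • (Finsupp.single P n : Dv k M) = Finsupp.single (θ • P) n := Finsupp.comapSMul_single θ P n

/-- permutation modules of finite groups have no cohomology in degree one -/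
theorem h1_dv (N : Subgroup (SL k M)) [Finite N] : H1 N (Dv k M) := fun c hc => by
  have := Fintype.ofFinite N
  let s : Dv k M := ∑ h : N, c h
  refine ⟨s.mapRange (fun t => -(t / Fintype.card N)) (by simp), fun g hg => Finsupp.ext fun P => ?_⟩
  have e : s = Fintype.card N • c g + g • s := by
    rw [Finset.smul_sum, ← Finset.card_univ, ← Finset.sum_const, ← Finset.sum_add_distrib]
    exact (Equiv.sum_comp (Equiv.mulLeft (⟨g, hg⟩ : N)) fun h : N => c h).symm.trans
      (Finset.sum_congr rfl fun h _ => hc g hg h h.2)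
  have e' := DFunLike.congr_fun e P
  rw [Finsupp.add_apply, dv_sm, Finsupp.smul_apply, nsmul_eq_mul, add_comm] at e'
  rw [Finsupp.sub_apply, dv_sm, Finsupp.mapRange_apply, Finsupp.mapRange_apply, e',
    Int.add_mul_ediv_left _ _ (Nat.cast_ne_zero.2 Fintype.card_ne_zero)]
  ring

/-- points with coordinates in the function field -/
def Pm (M : Type) [Field M] (a b : ℚ) : Type := (crv (a : M) (b : M)).Point

/-- points with coordinates in the constants -/
def Ep (k : Type) [Field k] (a b : ℚ) : Type := (crv (a : k) (b : k)).Point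

variable {a b : ℚ}

instance : AddCommGroup (Pm M a b) := inferInstanceAs (AddCommGroup (crv (a : M) (b : M)).Point)

instance : AddCommGroup (Ep k a b) := inferInstanceAs (AddCommGroup (crv (a : k) (b : k)).Point)

/-- the map of points along a homomorphism -/
def mq (s : M →+* M') : Pm M a b →+ Pm M' a b := mp s (map_ratCast s a) (map_ratCast s b)

theorem mq_inj (s : M →+* M') : Function.Injective (mq (a := a) (b := b) s) := mp_inj _ _ _

theorem mq_mq (s : M →+* M') (t : M' →+* M'') (u : M →+* M'') (e : ∀ x, u x = t (s x))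
    (ξ : Pm M a b) : mq t (mq s ξ) = mq u ξ := mp_mp _ _ _ _ _ _ _ _ _ e ξ

theorem mq_id (s : M →+* M) (e : ∀ x, s x = x) (ξ : Pm M a b) : mq s ξ = ξ := by
  rcases ξ with _ | ⟨x, y, h⟩
  · rfl
  · exact mp_id _ _ _ h (e x) (e y)

instance : DistribMulAction (SL k M) (Pm M a b) where
  smul θ ξ := mq θ.1 ξ
  one_smul := mq_id _ fun _ => rfl
  mul_smul _ _ _ := (mq_mq _ _ _ (fun _ => rfl) _).symm
  smul_zero _ := map_zero _
  smul_add _ := map_add _

theorem pm_sm (θ : SL k M) (ξ : Pm M a b) : θ • ξ = mq θ.1 ξ := rfl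

/-- the action of the automorphisms of the constants -/
def ea (s : k ≃+* k) : Ep k a b →+ Ep k a b := mq (a := a) (b := b) (s : k →+* k)

instance : DistribMulAction (SL k M) (Ep k a b) where
  smul θ e := ea (res0 θ) e
  one_smul := mq_id _ fun x => by rw [map_one]; rfl
  mul_smul _ _ _ := (mq_mq _ _ _ (fun x => by rw [map_mul]; rfl) _).symm
  smul_zero _ := map_zero _
  smul_add _ := map_add _

theorem ep_sm (θ : SL k M) (e : Ep k a b) : θ • e = ea (res0 θ) e := rfl

theorem ep_one {θ : SL k M} (h : res0 θ = 1) (e : Ep k a b) : θ • e = e := by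
  rw [ep_sm, h]; exact mq_id _ (fun _ => rfl) e

/-- a constant as a unit -/
def cu (M : Type) [Field M] [Algebra k M] (c : kˣ) : Un M := Additive.ofMul (cU M c)

theorem vv_cu (c : kˣ) : vv (cu M c) = algebraMap k M c := rfl

variable [CFF k M]

theorem ord_sm (θ : SL k M) (P : Plk k M) (x : M) : ord (θ • P) (θ.1 x) = ord P x :=
  ord_plEquiv _ _ _ P x

/-- the part of the divisor on `Y` -/
def dY (Y : Set (Plk k M)) : Un M →+ Dv k M :=
  AddMonoidHom.mk' (fun u => (dv k (vv u)).filter (· ∈ Y)) fun u v => Finsupp.ext fun P => by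
    simp only [Finsupp.add_apply, Finsupp.filter_apply, dv_apply, vv_add,
      ord_mul P (vv_ne u) (vv_ne v)]
    split_ifs <;> simp

theorem dY_apply (Y : Set (Plk k M)) (u : Un M) (P : Plk k M) :
    dY Y u P = if P ∈ Y then ord P (vv u) else 0 := by
  rw [← dv_apply]; rfl

theorem dY_cu (Y : Set (Plk k M)) (c : kˣ) : dY Y (cu M c) = 0 := Finsupp.ext fun P => by
  simp [dY_apply, vv_cu, ord_const]

theorem dY_sm {Y : Set (Plk k M)} {θ : SL k M} (h : ∀ P, θ • P ∈ Y ↔ P ∈ Y) (u : Un M) :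
    dY Y (θ • u) = θ • dY Y u := Finsupp.ext fun P => by
  rw [dv_sm, dY_apply, dY_apply, ← h (θ⁻¹ • P), ← ord_sm θ (θ⁻¹ • P), smul_inv_smul, vv_smul]

variable [CharZero k] (hD : 4 * a ^ 3 + 27 * b ^ 2 ≠ 0)

include hD in
theorem cd (M : Type) [Field M] [Algebra k M] : Cd (a : k) (b : k) (a : M) (b : M) :=
  ⟨map_ratCast _ a, map_ratCast _ b, two_ne_zero, by exact_mod_cast hD⟩

/-- specialisation -/
def sq (P : Plk k M) : Pm M a b →+ Ep k a b := sp (cd hD M) P

/-- the sum of a divisor -/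
def Sq (ξ : Pm M a b) : Dv k M →+ Ep k a b := S (cd hD M) ξ

theorem Sq_single (ξ : Pm M a b) (P : Plk k M) (n : ℤ) :
    Sq hD ξ (Finsupp.single P n) = n • sq hD P ξ := S_single _ _ _ _

theorem sq_map [Algebra k M'] [CFF k M'] {s : M →+* M'} {s₀ : k ≃+* k}
    (hs : ∀ c, s (algebraMap k M c) = algebraMap k M' (s₀ c)) {P : Plk k M} {P' : Plk k M'}
    (e : ∀ x, s x ∈ P'.1 ↔ x ∈ P.1) (ξ : Pm M a b) : sq hD P' (mq s ξ) = ea s₀ (sq hD P ξ) :=
  sp_map (cd hD M) (cd hD M') (s := s) (s₀ := (s₀ : k →+* k)) hs e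
    (map_ratCast (s₀ : k →+* k) a) (map_ratCast (s₀ : k →+* k) b) (map_ratCast s a)
    (map_ratCast s b) ξ

theorem sq_sm (θ : SL k M) (P : Plk k M) (ξ : Pm M a b) :
    sq hD (θ • P) (θ • ξ) = θ • sq hD P ξ := sq_map hD (res0_spec θ) (sm_mem θ P) ξ

theorem Sq_sm (θ : SL k M) (ξ : Pm M a b) (d : Dv k M) :
    Sq hD (θ • ξ) (θ • d) = θ • Sq hD ξ d := by
  induction d using Finsupp.induction_linear with
  | zero => simp
  | add d d' e e' => rw [smul_add, map_add, map_add, smul_add, e, e']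
  | single P n => rw [sm_single, Sq_single, Sq_single, sq_sm, sm_z]

end Vale.Agent.P014T.Ts
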