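import Vale.Agent.P014T.Ts.Ad

/-! # P014 T: the class of a symbol on a level -/

set_option linter.all false

open scoped Classical

noncomputable section

namespace Vale.Agent.P014T.Ts

open Vale.Agent.P019P P025H492 P027M.K Vale.Agent.P004H.H666 Kc Pu IntermediateField

variable {k Ω : Type} [Field k] [Field Ω] [Algebra k Ω]
  {F F' F₁ M M' M₀ : IntermediateField k Ω} {H H' H₁ : Subgroup (SL k Ω)} {θ x y : SL k Ω}
  {j j₁ : Ω} {a b : ℚ} {I : Type} [Fintype I] {r : I → SL k Ω} {p : SL k Ω → I → I}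

theorem ex_mu {α : Un Ω} (h : vv α ∈ M) : ∃ α', mu (io M) α' = α :=
  ⟨un' ⟨_, h⟩ fun e => vv_ne α (congrArg (·.1) e), vv_inj rfl⟩

theorem mu_mem (α : Un M) : vv (mu (io M) α) ∈ M := (vv α).2

theorem mu_inc (h : M ≤ M') (α : Un M) : mu (io M') (mu (inc h) α) = mu (io M) α := rfl

theorem mq_inc (h : M ≤ M') (ξ : Pm M a b) : mq (io M') (mq (inc h) ξ) = mq (io M) ξ :=
  mq_mq _ _ _ (fun _ => rfl) ξ

theorem fx_mu {α : Un M} (h : Fx H (mu (io M) α)) : Fx (im (io M) H) α :=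
  fun _ ⟨θ, l, e⟩ => mu_inj (io M) ((e.mu α).trans (h θ l))

theorem fx_mq {ξ : Pm M a b} (h : Fx H (mq (io M) ξ)) : Fx (im (io M) H) ξ :=
  fun _ ⟨θ, l, e⟩ => mq_inj (io M) ((e.mq ξ).trans (h θ l))

theorem Stb.fx (s : Stb M H) {α : Un M} (h : Fx (im (io M) H) α) : Fx H (mu (io M) α) :=
  fun θ l => ((s.rs l).mu α).symm.trans (congrArg _ (h _ (s.mem le_rfl l)))

theorem Stb.inv (s : Stb M H) (l : θ ∈ H) : Ts.rs (io M) θ⁻¹ = (Ts.rs (io M) θ)⁻¹ := (s.rs l).inv.eq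

theorem Stb.un (s : Stb M H) (l : θ ∈ H) (h : Fi M ≤ H') (e : Ts.rs (io M) θ ∈ im (io M) H') :
    θ ∈ H' := by
  obtain ⟨η, l', e⟩ := e
  have : η⁻¹ * θ ∈ Fi M := fun u e' => by
    rw [sl_mul, show θ.1 u = η.1 u from (s.rs l ⟨u, e'⟩).symm.trans (e ⟨u, e'⟩), sl_inv']
  simpa using mul_mem l' (h this)

theorem Stb.tn (s : Stb M H) (t : Tn H H' r) (h : Fi M ≤ H') :
    Tn (im (io M) H) (im (io M) H') fun i => Ts.rs (io M) (r i) :=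
  ⟨im_mono t.le, fun i => s.mem le_rfl (t.mem i), fun n ⟨ν, l, e⟩ => (t.ex ν l).imp fun i l' =>
    ⟨_, l', (s.rs (t.mem i)).inv.mul e⟩, fun i i' e => t.un i i' (s.un
      (mul_mem (inv_mem (t.mem i)) (t.mem i')) h
      (by rwa [((s.rs (t.mem i)).inv.mul (s.rs (t.mem i'))).eq]))⟩

theorem tn_of [Nonempty I] {G : Type} [Group G] {H H' : Subgroup G} {r : I → G} {p : G → I → I}
    (t : Tr H H' r p) : Tn H H' r :=
  ⟨t.le, t.mem, fun n l => ‹Nonempty I›.elim fun i =>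
    ⟨_, by simpa only [mul_assoc, inv_mul_cancel, mul_one] using
      t.act _ (mul_mem l (inv_mem (t.mem i))) i⟩, t.un⟩

theorem sum_mu (s : Stb M H) (h : ∀ i, r i ∈ H) (β : Un M) :
    mu (io M) (∑ i, rs (io M) (r i) • β) = ∑ i, r i • mu (io M) β := by
  rw [map_sum]; exact Finset.sum_congr rfl fun i _ => (s.rs (h i)).mu β

variable [CharZero k] (hD : 4 * a ^ 3 + 27 * b ^ 2 ≠ 0)

/-- the point is defined over `F` and specialises to zero at the poles of `j` -/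
def Csp (j : Ω) (F : IntermediateField k Ω) (ξ : Pm Ω a b) : Prop :=
  ∃ (_ : CFF k F) (ξ₀ : Pm F a b), mq (io F) ξ₀ = ξ ∧ ∀ P ∉ Yj F j, sq hD P ξ₀ = 0

/-- the standing hypotheses -/
structure Bs (j : Ω) (F : IntermediateField k Ω) (H : Subgroup (SL k Ω)) (ξ : Pm Ω a b) (m : ℕ)
    (ζ : kˣ) : Prop where
  lv : Lev j F H
  fx : Fx H ξ
  cu : Csp hD j F ξ
  m0 : m ≠ 0
  pr : IsPrimitiveRoot ζ m
  fz : ∀ x ∈ H, res0 x ζ = ζ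
  dv : ∀ e : Ep k a b, ∃ q, m • q = e

/-- the class computed in `M` -/
def Zat (M : IntermediateField k Ω) [CFF k M] (j : Ω) (F : IntermediateField k Ω)
    (H : Subgroup (SL k Ω)) (ξ : Pm Ω a b) (m : ℕ) (ζ : kˣ) (α β : Un Ω)
    (z : SL k Ω → Ep k a b) : Prop :=
  ∃ ξ' α' β' z', mq (io M) ξ' = ξ ∧ mu (io M) α' = α ∧ mu (io M) β' = β ∧
    Sym (im (io M) H) (im (io M) (Fi F)) (dY (Yj M j)) (SN hD (im (io M) (Fi F)) ξ') m (cu M ζ)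
      α' β' z' ∧ ∀ θ ∈ H, z θ = z' (rs (io M) θ)

/-- **the class of the symbol of `m • α` and `m • β`** -/
def Zc (j : Ω) (F : IntermediateField k Ω) (H : Subgroup (SL k Ω)) (ξ : Pm Ω a b) (m : ℕ)
    (ζ : kˣ) (α β : Un Ω) (z : SL k Ω → Ep k a b) : Prop :=
  Bs hD j F H ξ m ζ ∧ ∃ (M : IntermediateField k Ω) (_ : CFF k M), Adm j F H M ∧
    Zat hD M j F H ξ m ζ α β z

variable {hD} {ξ ξ' : Pm Ω a b} {m : ℕ} {ζ ζ₁ : kˣ} {α β α' β' : Un Ω} {z z' : SL k Ω → Ep k a b}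

theorem Csp.up [CFF k M] (c : Csp hD j F ξ) (t : Transcendental k j) (l : j ∈ F) (h : F ≤ M) :
    ∃ ξ₀, mq (io M) ξ₀ = ξ ∧ ∀ P ∉ Yj M j, sq hD P ξ₀ = 0 := by
  obtain ⟨_, ξ, rfl, c⟩ := c
  obtain ⟨π, C, e, -⟩ := cov_le h t l
  exact ⟨_, mq_inc h ξ, fun P y => by rw [C.sq hD, c _ fun y' => y ((e P).2 y'), map_zero]⟩

theorem Csp.add (c : Csp hD j F ξ) (c' : Csp hD j F ξ') : Csp hD j F (ξ + ξ') :=
  let ⟨i, ξ, e, c⟩ := c
  let ⟨_, ξ', e', c'⟩ := c'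
  ⟨i, ξ + ξ', by rw [map_add, e, e'], fun P y => by rw [map_add, c P y, c' P y, add_zero]⟩

theorem Csp.zsmul (c : Csp hD j F ξ) (n : ℤ) : Csp hD j F (n • ξ) :=
  let ⟨i, ξ, e, c⟩ := c
  ⟨i, n • ξ, by rw [map_zsmul, e], fun P y => by rw [map_zsmul, c P y, smul_zero]⟩

theorem mq_cme (h : ∀ x, θ.1 x ∈ M' ↔ x ∈ M) (ξ : Pm M a b) :
    mq (io M') (mq (cme h : M →+* M') ξ) = θ • mq (io M) ξ :=
  (mq_mq _ _ ((θ.1 : Ω →+* Ω).comp (io M)) (fun _ => rfl) ξ).trans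
    (mq_mq _ _ _ (fun _ => rfl) ξ).symm

theorem Csp.conj [CFF k F₁] (c : Csp hD j F ξ) (h : ∀ x, θ.1 x ∈ F₁ ↔ x ∈ F)
    (d : Yj F₁ (θ.1 j) ⊆ Yj F₁ j₁) : Csp hD j₁ F₁ (θ • ξ) := by
  obtain ⟨_, ξ, rfl, c⟩ := c
  exact ⟨‹_›, _, mq_cme h ξ, fun P y => by
    rw [(cv_iso (cme_k h) (yj_iso (j := j) h)).sq hD, c _ fun y' => y (d ((yj_iso h P).2 y')), map_zero]⟩

theorem Bs.mono (B : Bs hD j F H ξ m ζ) (h : H' ≤ H) (h' : Fi F ≤ H') : Bs hD j F H' ξ m ζ :=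
  ⟨B.lv.mono h h', fun x l => B.fx x (h l), B.cu, B.m0, B.pr, fun x l => B.fz x (h l), B.dv⟩

theorem Bs.cs [CFF k M] (B : Bs hD j F H ξ m ζ) (h : F ≤ M) {ξ' : Pm M a b}
    (e : mq (io M) ξ' = ξ) : ∀ P ∉ Yj M j, sq hD P ξ' = 0 := by
  obtain ⟨ξ, e', c⟩ := B.cu.up B.lv.tr B.lv.jm h
  rwa [mq_inj _ (e.trans e'.symm)]

theorem Bs.fz' (B : Bs hD j F H ξ m ζ) : ∀ x ∈ im (io M) H, res0 x ζ = ζ :=
  fun _ ⟨θ, l, e⟩ => by rw [e.res fun _ => rfl, B.fz θ l]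

theorem Bs.ze [CFF k M] (B : Bs hD j F H ξ m ζ) {Y : Set (Plk k M)} :
    Ze (im (io M) H) (dY Y) m (Ts.cu M ζ) :=
  Ts.ze B.pr.pow_eq_one B.fz'

theorem Zat.ml [CFF k M] (h : Zat hD M j F H ξ m ζ α β z) : vv α ∈ M :=
  let ⟨_, α, _, _, _, e, _⟩ := h
  e ▸ mu_mem α

theorem Zat.mr [CFF k M] (h : Zat hD M j F H ξ m ζ α β z) : vv β ∈ M :=
  let ⟨_, _, β, _, _, _, e, _⟩ := h
  e ▸ mu_mem β

theorem Zat.cob [CFF k M] (A : Adm j F H M) (h : Zat hD M j F H ξ m ζ α β z) (q : Ep k a b)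
    (hq : m • q = 0) (e : ∀ x ∈ H, z' x = z x + (x • q - q)) : Zat hD M j F H ξ m ζ α β z' :=
  let ⟨ξ, α, β, w, e1, e2, e3, s, f⟩ := h
  ⟨ξ, α, β, fun x => w x + (x • q - q), e1, e2, e3, s.cob q hq fun _ _ => rfl, fun x l => by
    rw [e x l, f x l, ← (A.st.rs l).ep]⟩

variable [IsAlgClosed k]

theorem Bs.fr [CFF k M] (B : Bs hD j F H ξ m ζ) (A : Adm j F H M) {ξ' : Pm M a b}
    (e : mq (io M) ξ' = ξ) : Fr (im (io M) H) (im (io M) (Fi F)) (dY (Yj M j))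
      (SN hD (im (io M) (Fi F)) ξ') :=
  (A.fm B.lv).frame hD (fx_mq (e ▸ B.fx)) (B.cs A.le e)

theorem Bs.ex [CFF k M] (B : Bs hD j F H ξ m ζ) (A : Adm j F H M) (l : vv α ∈ M) (l' : vv β ∈ M)
    (h : Fx H (m • α)) (h' : Fx H (m • β)) : ∃ z, Zat hD M j F H ξ m ζ α β z := by
  obtain ⟨ξ, rfl, c⟩ := B.cu.up B.lv.tr B.lv.jm A.le
  obtain ⟨α, rfl⟩ := ex_mu l
  obtain ⟨β, rfl⟩ := ex_mu l'
  obtain ⟨w, s⟩ := (A.fm B.lv).ex hD (fx_mq B.fx) c B.m0 B.pr B.fz' B.dv (α := α) (β := β)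
    (fx_mu (by rwa [map_nsmul])) (fx_mu (by rwa [map_nsmul]))
  exact ⟨fun x => w (rs (io M) x), ξ, α, β, w, rfl, rfl, rfl, s, fun _ _ => rfl⟩

theorem Zat.uniq [CFF k M] (B : Bs hD j F H ξ m ζ) (A : Adm j F H M)
    (h : Zat hD M j F H ξ m ζ α β z) (h' : Zat hD M j F H ξ m ζ α β z') :
    ∃ q, m • q = 0 ∧ ∀ x ∈ H, z x = z' x + (x • q - q) := by
  obtain ⟨ξ, α, β, w, rfl, rfl, rfl, s, f⟩ := h
  obtain ⟨_, _, _, w', e1, e2, e3, s', f'⟩ := h'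
  rw [mq_inj _ e1, mu_inj _ e2, mu_inj _ e3] at s'
  obtain ⟨q, e, g⟩ := s.uniq (B.fr A rfl) s'
  exact ⟨q, e, fun x l => by rw [f x l, f' x l, g _ (A.st.mem le_rfl l), (A.st.rs l).ep]⟩

section

variable (h : Zc hD j F H ξ m ζ α β z)
include h

theorem Zc.coc (l : x ∈ H) (l' : y ∈ H) : z (x * y) = z x + x • z y := by
  obtain ⟨B, M, _, A, ξ, α, β, w, rfl, rfl, rfl, s, f⟩ := h
  rw [f _ (mul_mem l l'), f x l, f y l', A.st.mul l l', s.coc (B.fr A rfl) B.ze (A.st.mem le_rfl l)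
    (A.st.mem le_rfl l'), (A.st.rs l).ep]

theorem Zc.tor (l : x ∈ H) : m • z x = 0 := by
  obtain ⟨B, M, _, A, ξ, α, β, w, rfl, rfl, rfl, s, f⟩ := h
  rw [f x l, s.tor (B.fr A rfl) B.ze (A.st.mem le_rfl l)]

theorem Zc.geo (l : x ∈ H) (l' : y ∈ Fi F) : z (x * y) = z x := by
  obtain ⟨B, M, _, A, ξ, α, β, w, rfl, rfl, rfl, s, f⟩ := h
  rw [f _ (mul_mem l (B.lv.le l')), f x l, A.st.mul l (B.lv.le l'), s.geo (B.fr A rfl) B.ze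
    (A.st.mem le_rfl l) (A.st.mem B.lv.le l')]

theorem Zc.fx : Fx H (m • α) ∧ Fx H (m • β) := by
  obtain ⟨B, M, _, A, ξ, α, β, w, rfl, rfl, rfl, ⟨u, v, h1, h2, -⟩, f⟩ := h
  have : ∀ {α : Un M} {u}, Rt (im (io M) H) (cu M ζ) α u → Fx H (m • mu (io M) α) := fun e => by
    rw [← map_nsmul]
    exact A.st.fx fun x l => by rw [sm_n, ← sub_eq_zero, ← smul_sub, e x l, (B.ze (Y := ∅)).mz']
  exact ⟨this h1, this h2⟩

theorem Zc.cob (q : Ep k a b) (hq : m • q = 0) (e : ∀ x ∈ H, z' x = z x + (x • q - q)) :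
    Zc hD j F H ξ m ζ α β z' :=
  let ⟨B, M, i, A, h⟩ := h
  ⟨B, M, i, A, h.cob A q hq e⟩

theorem Zc.skew : Zc hD j F H ξ m ζ β α (-z) :=
  let ⟨B, M, i, A, ξ, α, β, w, e1, e2, e3, s, f⟩ := h
  ⟨B, M, i, A, ξ, β, α, -w, e1, e3, e2, s.skew (B.fr A e1) B.ze,
    fun x l => congrArg (-·) (f x l)⟩

theorem Zc.zsmul_l (c : ℤ) : Zc hD j F H ξ m ζ (c • α) β (c • z) :=
  let ⟨B, M, i, A, ξ, α, β, w, e1, e2, e3, s, f⟩ := h
  ⟨B, M, i, A, ξ, c • α, β, c • w, e1, e2 ▸ map_zsmul _ _ _, e3, s.zsmul_l (im_mono B.lv.le) c,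
    fun x l => congrArg (c • ·) (f x l)⟩

theorem Zc.zsmul_r (c : ℤ) : Zc hD j F H ξ m ζ α (c • β) (c • z) :=
  let ⟨B, M, i, A, ξ, α, β, w, e1, e2, e3, s, f⟩ := h
  ⟨B, M, i, A, ξ, α, c • β, c • w, e1, e2, e3 ▸ map_zsmul _ _ _, s.zsmul_r (im_mono B.lv.le) c,
    fun x l => congrArg (c • ·) (f x l)⟩

theorem Zc.zsmul_x (c : ℤ) : Zc hD j F H (c • ξ) m ζ α β (c • z) := by
  obtain ⟨B, M, i, A, ξ, α, β, w, rfl, rfl, rfl, s, f⟩ := h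
  refine ⟨⟨B.lv, fun x l => by rw [sm_z, B.fx x l], B.cu.zsmul c, B.m0, B.pr, B.fz, B.dv⟩, M, i, A,
    c • ξ, α, β, c • w, map_zsmul _ _ _, rfl, rfl, s.map (B.fr A rfl) B.ze (Mp.res
      (zsmulAddGroupHom c) (im_mono B.lv.le) le_rfl le_rfl (fun x _ e => (sm_z x c e).symm)
      fun d _ => ?_), fun x l => congrArg (c • ·) (f x l)⟩
  rw [SN_apply, SN_apply, ← os_hom _ (sq_fin hD ξ d)]
  exact congrArg _ (funext fun P => by rw [map_zsmul, smul_comm]; rfl)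

theorem Zc.lev {n m' : ℕ} (e : m = m' * n) :
    Zc hD j F H ξ m' (ζ ^ n) (n • α) (n • β) (n • z) := by
  obtain ⟨B, M, i, A, ξ, α, β, w, rfl, rfl, rfl, s, f⟩ := h
  subst e
  exact ⟨⟨B.lv, B.fx, B.cu, left_ne_zero_of_mul B.m0, B.pr.pow (Nat.pos_of_ne_zero B.m0)
    (mul_comm _ _), fun x l => by rw [Units.val_pow_eq_pow_val, map_pow, B.fz x l], fun e =>
    let ⟨q, h⟩ := B.dv e; ⟨n • q, by rw [← mul_smul, h]⟩⟩, M, i, A, ξ, n • α, n • β, n • w, rfl,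
    map_nsmul _ _ _, map_nsmul _ _ _, (show cu M (ζ ^ n) = n • cu M ζ from vv_inj (by
      simp [vv_cu, vv_nsmul])) ▸ s.lev (im_mono B.lv.le),
      fun x l => congrArg (n • ·) (f x l)⟩

theorem Zc.zeta {c : ℤ} (e : ζ = ζ₁ ^ c) (pr : IsPrimitiveRoot ζ₁ m)
    (fz : ∀ x ∈ H, res0 x ζ₁ = ζ₁) : Zc hD j F H ξ m ζ₁ α β (c • z) := by
  obtain ⟨B, M, i, A, ξ, α, β, w, rfl, rfl, rfl, s, f⟩ := h
  rw [show cu M ζ = c • cu M ζ₁ from vv_inj (by simp [e, vv_cu, vv_zsmul])] at s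
  exact ⟨⟨B.lv, B.fx, B.cu, B.m0, pr, fz, B.dv⟩, M, i, A, ξ, α, β, c • w, rfl, rfl, rfl,
    s.zeta (im_mono B.lv.le), fun x l => congrArg (c • ·) (f x l)⟩

/-- **local constancy** -/
theorem Zc.lc [IsAlgClosed Ω] {l : Filter (SL k Ω)} (e : ∀ f ∈ F, ∀ᶠ θ in l, θ.1 f = f) :
    ∀ᶠ θ in l, θ ∈ H → z θ = 0 := by
  obtain ⟨B, M, _, A, ξ, α, β, w, rfl, rfl, rfl, s, f⟩ := h
  have := (A.fm B.lv).lc hD (fx_mq B.fx) (B.cs A.le rfl) B.ze s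
    (l := (l ⊓ .principal H).map (rs (io M))) fun u h => by
      rw [Filter.eventually_map, Filter.eventually_inf_principal]
      exact (e u (B.lv.mem fun θ l' => (A.st.rs (B.lv.le l') u).symm.trans (congrArg _
        (h _ (A.st.mem B.lv.le l'))))).mono fun θ e l' => Subtype.ext ((A.st.rs l' u).trans e)
  rw [Filter.eventually_map, Filter.eventually_inf_principal] at this
  exact this.mono fun θ e l' => (f θ l').trans (e l' (A.st.mem le_rfl l'))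

/-- **conjugation** -/
theorem Zc.conj (θ : SL k Ω) (L : Lev j₁ F₁ H₁) (hF : ∀ x, θ.1 x ∈ F₁ ↔ x ∈ F)
    (hH : ∀ x ∈ H₁, θ⁻¹ * x * θ ∈ H) (d : Dm k j₁ (θ.1 j)) (d' : Dm k (θ.1 j) j₁)
    (e : (ζ₁ : k) = res0 θ ζ) :
    Zc hD j₁ F₁ H₁ (θ • ξ) m ζ₁ (θ • α) (θ • β) fun x => θ • z (θ⁻¹ * x * θ) := by
  obtain ⟨B, M, _, A, ξ, α, β, w, rfl, rfl, rfl, s, f⟩ := h
  have c : ∀ x, θ.1 x ∈ cm θ⁻¹ M ↔ x ∈ M := fun _ => sm_cm
  have j1 := (hF j).2 B.lv.jm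
  have le : F₁ ≤ cm θ⁻¹ M := fun x l => A.le ((hF _).1 ((sl_inv θ x).symm ▸ l))
  have A₁ := A.conj hF hH (d.sub (le L.jm))
  have := A₁.cff L
  have := L.adm.cff L
  have C := cv_iso (cme_k c) (Y := Yj M j) (Y' := Yj _ j₁) fun P =>
    Iff.trans ⟨fun y => d.sub (le L.jm) y, fun y => d'.sub (le j1) y⟩ (yj_iso c P)
  have R : ∀ {x n n'}, Rs (io (cm θ⁻¹ M)) x n → Rs (io M) (θ⁻¹ * x * θ) n' →
      Rs (cme c : M →+* _) n n' := fun e e' u => Subtype.ext (by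
    refine (congrArg θ.1 (e' u)).trans ?_
    rw [sl_mul, sl_mul, sl_inv]
    exact (e (cme c u)).symm)
  have hN : ∀ x ∈ Fi F₁, θ⁻¹ * x * θ ∈ Fi F := fun x l u l' => by
    rw [sl_mul, sl_mul, l _ ((hF u).2 l'), sl_inv']
  let ε : M →+* cm θ⁻¹ M := cme c
  refine ⟨⟨L, fun x l => ?_, B.cu.conj hF (d'.sub j1), B.m0, IsPrimitiveRoot.coe_units_iff.1
    (e ▸ (IsPrimitiveRoot.coe_units_iff.2 B.pr).map_of_injective (res0 θ).injective),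
    fun x l => ?_, B.dv⟩, _, ‹_›, A₁, _, mu ε α, mu ε β, _, mq_cme c ξ, rfl, rfl,
    (show cu _ ζ₁ = mu ε (cu M ζ) from vv_inj (by rw [vv_cu, e]; exact (cme_k c _).symm)) ▸
      s.map (B.fr A rfl) B.ze (C.mp hD (Γ₁ := im (io _) H₁) (N₁ := im (io _) (Fi F₁)) (rs ε)
      (fun n ⟨x, l, e⟩ => ?_) (fun n ⟨x, l, e⟩ => ?_) (fun n ⟨x, l, e⟩ => ?_) (im_mono L.le)
      (A.fm B.lv).k1 (fx_mq fun x l => B.fx x (B.lv.le l)) fun P Q n ⟨ν, l, e⟩ e' => ?_),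
    fun x l => ?_⟩
  · rw [← mul_smul, show x * θ = θ * (θ⁻¹ * x * θ) by group, mul_smul, B.fx _ (hH x l)]
  · have := congrArg (res0 θ) (B.fz _ (hH x l))
    rwa [← RingAut.mul_apply, ← map_mul, show θ * (θ⁻¹ * x * θ) = x * θ by group, map_mul,
      RingAut.mul_apply, ← e] at this
  · dsimp only
    rw [f _ (hH x l), (R (A₁.st.rs l) (A.st.rs (hH x l))).eq, ep_sm]
  · rw [(R e (A.st.rs (hH x l))).eq]; exact R e (A.st.rs (hH x l))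
  · rw [(R e (A.st.rs (hH x l))).eq]; exact A.st.mem le_rfl (hH x l)
  · rw [(R e (A.st.rs (hH x (L.le l)))).eq]; exact A.st.mem B.lv.le (hN x l)
  · have l' : θ * ν * θ⁻¹ ∈ Fi F₁ := fun u l' => by
      rw [sl_mul, sl_mul, l _ ((hF _).1 ((sl_inv θ u).symm ▸ l')), sl_inv]
    refine ⟨_, A₁.st.mem L.le l', (plEquiv _ _ (cme_k c)).symm.injective ?_⟩
    rw [C.sm (R (A₁.st.rs (L.le l')) (by simpa [mul_assoc] using e)), e']

theorem Zc.mono (l : H' ≤ H) (l' : Fi F ≤ H') : Zc hD j F H' ξ m ζ α β z :=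
  let ⟨B, M, i, A, ξ, α, β, w, e1, e2, e3, s, f⟩ := h
  ⟨B.mono l l', M, i, A.mono l le_rfl A.le, ξ, α, β, w, e1, e2, e3, s.map (B.fr A e1) B.ze
    (Mp.res (.id _) (im_mono l') (im_mono l) le_rfl (fun _ _ _ => rfl) fun _ _ => rfl),
    fun x e => f x (l e)⟩

end

variable [IsAlgClosed Ω]

/-- **existence** -/
theorem Zc.ex (B : Bs hD j F H ξ m ζ) (h : Fx H (m • α)) (h' : Fx H (m • β))
    (u : Unt j F m (vv (m • α))) (u' : Unt j F m (vv (m • β))) : ∃ z, Zc hD j F H ξ m ζ α β z := by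
  have A := (B.lv.adm.root B.lv B.m0 (vv_ne α) (fun θ l => congrArg vv (h θ l)) u).root B.lv B.m0
    (vv_ne β) (fun θ l => congrArg vv (h' θ l)) u'
  have := A.cff B.lv
  exact (B.ex A ((le_sup_right.trans le_sup_left : k⟮vv α⟯ ≤ _) (mem_adjoin_simple_self k _))
    ((le_sup_right : k⟮vv β⟯ ≤ _) (mem_adjoin_simple_self k _)) h h').imp
    fun z e => ⟨B, _, this, A, e⟩

theorem Zat.up [CFF k M] [CFF k M'] (B : Bs hD j F H ξ m ζ) (A : Adm j F H M) (A' : Adm j F H M')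
    (l : M ≤ M') (h : Zat hD M j F H ξ m ζ α β z) : Zat hD M' j F H ξ m ζ α β z := by
  obtain ⟨ξ, α, β, w, rfl, rfl, rfl, s, f⟩ := h
  obtain ⟨π, C, t⟩ := A.cov B.lv A' l
  have R : ∀ {x n}, x ∈ H → Rs (io M') x n → rs (inc l) n = rs (io M) x := fun l' e =>
    ((A.st.rs l').inc l e).eq
  refine ⟨_, _, _, _, mq_inc l ξ, mu_inc l α, mu_inc l β, s.map (B.fr A rfl) B.ze (C.mp hD
    (Γ₁ := im (io _) H) (N₁ := im (io _) (Fi F)) (rs (inc l)) (fun n ⟨x, l', e⟩ => ?_) (fun n ⟨x, l', e⟩ => ?_) (fun n ⟨x, l', e⟩ => ?_)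
    (im_mono B.lv.le) (A.fm B.lv).k1 (fx_mq fun x l => B.fx x (B.lv.le l)) t), fun x l' => ?_⟩
  · rw [R l' e]; exact (A.st.rs l').inc l e
  · rw [R l' e]; exact A.st.mem le_rfl l'
  · rw [R (B.lv.le l') e]; exact A.st.mem B.lv.le l'
  · rw [R l' (A'.st.rs l'), ea_one, f x l']

theorem Zc.up (h : Zc hD j F H ξ m ζ α β z) (A : Adm j F H M₀) :
    ∃ (M : IntermediateField k Ω) (_ : CFF k M), M₀ ≤ M ∧ Adm j F H M ∧
      Zat hD M j F H ξ m ζ α β z :=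
  let ⟨B, _, _, A', h⟩ := h
  have := (A.sup B.lv A').cff B.lv
  ⟨_, this, le_sup_left, A.sup B.lv A', h.up B A' (A.sup B.lv A') le_sup_right⟩

/-- **the class can be computed in every admissible field** -/
theorem Zc.at [CFF k M] (h : Zc hD j F H ξ m ζ α β z) (A : Adm j F H M) (l : vv α ∈ M)
    (l' : vv β ∈ M) : Zat hD M j F H ξ m ζ α β z := by
  obtain ⟨z', e⟩ := h.1.ex A l l' h.fx.1 h.fx.2
  obtain ⟨M', _, l, A', e'⟩ := h.up A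
  obtain ⟨q, e1, e2⟩ := e'.uniq h.1 A' (e.up h.1 A A' l)
  exact e.cob A q e1 e2

theorem Zc.two {ζ' : kˣ} (h : Zc hD j F H ξ m ζ α β z) (h' : Zc hD j F H ξ' m ζ' α' β' z') :
    ∃ (M : IntermediateField k Ω) (_ : CFF k M), Adm j F H M ∧ Zat hD M j F H ξ m ζ α β z ∧
      Zat hD M j F H ξ' m ζ' α' β' z' :=
  let ⟨B, _, _, A, h⟩ := h
  let ⟨M, i, l, A', e⟩ := h'.up A
  ⟨M, i, A', h.up B A A' l, e⟩

/-- **uniqueness** -/
theorem Zc.uniq (h : Zc hD j F H ξ m ζ α β z) (h' : Zc hD j F H ξ m ζ α β z') :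
    ∃ q, m • q = 0 ∧ ∀ x ∈ H, z x = z' x + (x • q - q) :=
  let ⟨_, _, A, e, e'⟩ := h.two h'
  e.uniq h.1 A e'

theorem Zc.add_l (h : Zc hD j F H ξ m ζ α β z) (h' : Zc hD j F H ξ m ζ α' β z') :
    Zc hD j F H ξ m ζ (α + α') β (z + z') := by
  obtain ⟨M, i, A, ⟨ξ, α, β, w, rfl, rfl, rfl, s, f⟩, _, α', _, w', e1, rfl, e3, s', f'⟩ := h.two h'
  rw [mq_inj _ e1, mu_inj _ e3] at s'
  exact ⟨h.1, M, i, A, ξ, α + α', β, w + w', rfl, map_add _ _ _, rfl,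
    s.add_l (im_mono h.1.lv.le) s', fun x l => congrArg₂ (· + ·) (f x l) (f' x l)⟩

theorem Zc.add_r (h : Zc hD j F H ξ m ζ α β z) (h' : Zc hD j F H ξ m ζ α β' z') :
    Zc hD j F H ξ m ζ α (β + β') (z + z') := by
  simpa only [neg_add_rev, neg_neg, add_comm] using (h.skew.add_l h'.skew).skew

theorem Zc.add_x (h : Zc hD j F H ξ m ζ α β z) (h' : Zc hD j F H ξ' m ζ α β z') :
    Zc hD j F H (ξ + ξ') m ζ α β (z + z') := by
  obtain ⟨M, i, A, ⟨ξ, α, β, w, rfl, rfl, rfl, s, f⟩, ξ', _, _, w', rfl, e2, e3, s', f'⟩ := h.two h'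
  rw [mu_inj _ e2, mu_inj _ e3] at s'
  have B := h.1
  exact ⟨⟨B.lv, B.fx.add h'.1.fx, B.cu.add h'.1.cu, B.m0, B.pr, B.fz, B.dv⟩, M, i, A, ξ + ξ', α, β,
    w + w', map_add _ _ _, rfl, rfl, s.add_s (B.fr A rfl) (h'.1.fr A rfl) B.ze s'
      fun d _ => SN_add hD d, fun x l => congrArg₂ (· + ·) (f x l) (f' x l)⟩

theorem Lev.mu (L : Lev j F H) (l : F ≤ M) (h : Fx H α) :
    ∃ α', mu (io M) α' = α ∧ Fx (im (io M) H) α' :=
  let ⟨u, e⟩ := ex_mu (l (L.mem fun θ l => congrArg vv (h θ (L.le l))))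
  ⟨u, e, fx_mu (e ▸ h)⟩

theorem Zc.congr (h : Zc hD j F H ξ m ζ α β z) (h1 : Fx H (α' - α)) (h2 : Fx H (β' - β))
    (e : ∀ x ∈ H, z' x = z x) : Zc hD j F H ξ m ζ α' β' z' := by
  obtain ⟨B, M, i, A, ξ, α, β, w, rfl, rfl, rfl, s, f⟩ := h
  obtain ⟨u, e1, g1⟩ := B.lv.mu A.le h1
  obtain ⟨v, e2, g2⟩ := B.lv.mu A.le h2
  exact ⟨B, M, i, A, ξ, α + u, β + v, w, rfl, by rw [map_add, e1, add_sub_cancel],
    by rw [map_add, e2, add_sub_cancel], s.congr (by rwa [add_sub_cancel_left])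
      (by rwa [add_sub_cancel_left]) fun _ _ => rfl, fun x l => (e x l).trans (f x l)⟩

omit [IsAlgClosed k] [IsAlgClosed Ω] in
theorem Bs.fx0 (B : Bs hD j F H ξ m ζ) (h : m • α = 0) : Fx H α := fun x l => by
  obtain ⟨c, rfl⟩ := ex_cu B.m0 B.pr α h
  rw [sm_z, show x • Ts.cu Ω ζ = Ts.cu Ω ζ from vv_inj (by rw [vv_smul, vv_cu, res0_spec, B.fz x l])]

theorem Zc.root (h : Zc hD j F H ξ m ζ α β z) (h1 : m • α' = m • α) (h2 : m • β' = m • β) :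
    Zc hD j F H ξ m ζ α' β' z :=
  h.congr (h.1.fx0 (by rw [smul_sub, h1, sub_self])) (h.1.fx0 (by rw [smul_sub, h2, sub_self]))
    fun _ _ => rfl

theorem Zc.zero_l (h : Zc hD j F H ξ m ζ α β z) (e : Fx H α') : Zc hD j F H ξ m ζ α' β 0 :=
  (h.zsmul_l 0).congr (by simpa using e) (by simp [Fx]) (by simp)

theorem Zc.zero_r (h : Zc hD j F H ξ m ζ α β z) (e : Fx H β') : Zc hD j F H ξ m ζ α β' 0 :=
  (h.zsmul_r 0).congr (by simp [Fx]) (by simpa using e) (by simp)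

/-- **restriction to a covering** -/
theorem Zc.res (B' : Bs hD j F' H' ξ m ζ) (le : H' ≤ H) (A₀ : Adm j F H M₀) (l : F' ≤ M₀)
    (t : Tn (Fi F) (Fi F') r) (h : Zc hD j F H (∑ i, r i • ξ) m ζ α β z) :
    Zc hD j F' H' ξ m ζ α β z := by
  obtain ⟨M, i, l', A, ξ', α, β, w, e, rfl, rfl, s, f⟩ := h.up A₀
  have B := h.1
  obtain ⟨ξ, rfl, c⟩ := B'.cu.up B'.lv.tr B'.lv.jm (l.trans l')
  have S := A.st.mono B.lv.le
  obtain rfl : ξ' = ∑ i, rs (io M) (r i) • ξ := mq_inj (io M) (e.trans (by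
    rw [map_sum]; exact Finset.sum_congr rfl fun i _ => ((S.rs (t.mem i)).mq ξ).symm))
  exact ⟨B', M, i, ⟨A.fg, l.trans l', A.st.mono le, fun ν l => A.fr ν (t.le l)⟩, ξ, α, β, w, rfl,
    rfl, rfl, s.map (B.fr A e) B.ze (Mp.res (.id _) (im_mono B'.lv.le) (im_mono le) (im_mono t.le)
      (fun _ _ _ => rfl) fun d h => (SN_trx hD (A.fm B.lv) (S.tn t (fi_anti (l.trans l'))) c
        (fx_mq fun x l => B'.fx x (B'.lv.le l)) h).symm), fun x l => f x (le l)⟩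

/-- **norms for an extension of the constants** -/
theorem Zc.nrmC [Nonempty I] (B : Bs hD j F H ξ m ζ) (t : Tr H H' r p) (hα : Fx H (m • α))
    (h : Zc hD j F H' ξ m ζ α β z) : Zc hD j F H ξ m ζ α (∑ i, r i • β) (co1 r p z) := by
  obtain ⟨B', M', _, A', h⟩ := h
  obtain ⟨M, A, -, l⟩ := B.lv.adm.nc B.lv B'.lv le_rfl A' t.mem (tn_of t).ex
  have := A.cff B.lv
  obtain ⟨ξ, α, β, w, rfl, rfl, rfl, s, f⟩ := h.up B' A' (A.mono t.le le_rfl A.le) l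
  have le := (fi_anti A.le).trans B'.lv.le
  obtain ⟨p', t'⟩ := (A.st.tn (tn_of t) le).tr
  obtain ⟨u, hu⟩ := Rt.ex (ex_cu B.m0 B.pr) (fx_mu (α := m • α) (by rwa [map_nsmul]))
  refine ⟨B, M, this, A, ξ, α, _, _, rfl, rfl, sum_mu A.st t.mem β,
    s.nrmC (B.fr A rfl) B.ze t' (im_mono B'.lv.le) hu, fun x l => Finset.sum_congr rfl fun i _ => ?_⟩
  have R := ((A.st.rs (t.mem (p x i))).inv.mul (A.st.rs l)).mul (A.st.rs (t.mem i))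
  have e : p' (rs (io M) x) i = p x i := t'.un _ _ (by
    simpa [mul_assoc] using mul_mem (t'.act _ (A.st.mem le_rfl l) i)
      (inv_mem (show _ ∈ im (io M) H' from ⟨_, t.act x l i, R⟩)))
  rw [f _ (t.ta_mem l i), ta, ta, e, R.eq, (A.st.rs (t.mem _)).ep]

/-- **norms for a geometric covering** -/
theorem Zc.nrmG [Nonempty I] (B : Bs hD j F H ξ m ζ) (t : Tr H H' r p) (hr : ∀ i, r i ∈ Fi F)
    (hN : ∀ n ∈ Fi F, n ∈ H' → n ∈ Fi F') (lF : F ≤ F') (A₀ : Adm j F H M₀) (l₀ : F' ≤ M₀)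
    (hα : Fx H (m • α)) (h : Zc hD j F' H' ξ m ζ α β z') :
    ∃ z, Zc hD j F H ξ m ζ α (∑ i, r i • β) z ∧ ∀ x ∈ H', z x = z' x := by
  obtain ⟨B', M', _, A', h⟩ := h
  obtain ⟨M, A, l1, l⟩ := A₀.nc B.lv B'.lv l₀ A' t.mem (tn_of t).ex
  have := A.cff B.lv
  have A'' := A.mono t.le lF (l₀.trans l1)
  obtain ⟨ξ, α, β, w, rfl, rfl, rfl, s, f⟩ := h.up B' A' A'' l
  have le := fi_anti A''.le
  obtain ⟨p', t'⟩ := (A.st.tn (tn_of t) (le.trans B'.lv.le)).tr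
  obtain ⟨u, hu⟩ := Rt.ex (ex_cu B.m0 B.pr) (fx_mu (α := m • α) (by rwa [map_nsmul]))
  have T : Tn (Fi F) (Fi F') r := ⟨fi_anti lF, hr, fun n l => ((tn_of t).ex n (B.lv.le l)).imp
    fun i e => hN _ (mul_mem (inv_mem (hr i)) l) e, fun i i' e => t.un i i' (B'.lv.le e)⟩
  obtain ⟨z, s', e⟩ := s.nrmG (B.fr A rfl) (B'.fr A'' rfl) B.ze t'
    (fun i => A.st.mem B.lv.le (hr i)) (fun n ⟨ν, l, e⟩ l' => ⟨ν, hN ν l (A.st.un (B.lv.le l)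
      (le.trans B'.lv.le) (e.eq ▸ l')), e⟩) (fun d h => SN_trd hD (A.fm B.lv)
      ((A.st.mono B.lv.le).tn T le) (B.cs A.le rfl) (fx_mq fun x l => B.fx x (B.lv.le l)) h) hu
  exact ⟨fun x => z (rs (io M) x), ⟨B, M, this, A, ξ, α, _, z, rfl, rfl, sum_mu A.st t.mem β, s',
    fun _ _ => rfl⟩, fun x l => (e _ (A''.st.mem le_rfl l)).trans (f x l).symm⟩

end Vale.Agent.P014T.Ts
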