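import Vale.Agent.P014T.Ts.C1
import Mathlib.FieldTheory.Galois.Basic
import Mathlib.RingTheory.RootsOfUnity.PrimitiveRoots
import Mathlib.RingTheory.Norm.Transitivity

/-! # P014 T: the cup product of two Kummer characters splits over a `C1` field -/

open Finset

noncomputable section

namespace Vale.Agent.P014T.Ts

variable {F M : Type} [Field F] [Field M] [Algebra F M] {m : ℕ} [NeZero m] {ζ : F}

/-- the Kummer character -/
theorem ex_ka (hζ : IsPrimitiveRoot ζ m) {β : M} (h0 : β ≠ 0) {b : F} (hb : β ^ m = algebraMap F M b) :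
    ∃ κ : (M ≃ₐ[F] M) → ZMod m, ∀ g (n : ℕ), g β = algebraMap F M ζ ^ n * β ↔ (n : ZMod m) = κ g := by
  have z := hζ.map_of_injective (algebraMap F M).injective
  have : ∀ g : M ≃ₐ[F] M, ∃ i : ℕ, g β = algebraMap F M ζ ^ i * β := fun g => by
    obtain ⟨i, -, e⟩ := z.eq_pow_of_pow_eq_one (ξ := g β / β)
      (by rw [div_pow, ← map_pow, hb, g.commutes, ← hb, div_self (pow_ne_zero _ h0)])
    exact ⟨i, by rw [e, div_mul_cancel₀ _ h0]⟩
  choose i hi using this
  refine ⟨fun g => i g, fun g n => ?_⟩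
  rw [hi, mul_left_inj' h0, ZMod.natCast_eq_natCast_iff, z.eq_orderOf, eq_comm]
  exact (z.isOfFinOrder (NeZero.ne m)).pow_eq_pow_iff_modEq

variable [FiniteDimensional F M] [IsGalois F M]

theorem ex_ga (h : C1 F) (hζ : IsPrimitiveRoot ζ m) {β : M} (h0 : β ≠ 0) {b : F}
    (hb : β ^ m = algebraMap F M b) {κ : (M ≃ₐ[F] M) → ZMod m}
    (hκ : ∀ g (n : ℕ), g β = algebraMap F M ζ ^ n * β ↔ (n : ZMod m) = κ g) (a : F) :
    ∃ γ : ZMod m → M, (∀ g i, g (γ i) = γ (κ g + i)) ∧ ∏ i, γ i = algebraMap F M a := by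
  classical
  let K := MulAction.stabilizer (M ≃ₐ[F] M) β
  have : K.Normal := ⟨fun u (hu : u β = β) g => show g (u (g⁻¹ β)) = β by
    rw [(hκ g⁻¹ _).2 (ZMod.natCast_zmod_val _), map_mul, map_pow, u.commutes, hu,
      ← (hκ g⁻¹ _).2 (ZMod.natCast_zmod_val _)]
    exact g.apply_symm_apply β⟩
  let L := IntermediateField.fixedField K
  let β' : L := ⟨β, fun g => g.2⟩
  obtain ⟨ι, hι⟩ := ex_ka (M := L) (β := β') hζ (fun e => h0 (congrArg Subtype.val e))
    (Subtype.ext hb)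
  obtain ⟨x, rfl⟩ := h.norm L a
  have r : ∀ (g : M ≃ₐ[F] M) (y : L), (g.restrictNormal L y : M) = g y := fun g y =>
    g.restrictNormal_commutes L y
  refine ⟨fun i => ∏ φ with ι φ = i, (φ x : M), fun g i => ?_, ?_⟩
  · rw [map_prod]
    refine prod_equiv (Equiv.mulLeft (g.restrictNormal L)) (fun φ => ?_) fun φ _ => (r g _).symm
    have : ((κ g).val + (ι φ).val : ℕ) = ι (g.restrictNormal L * φ) := (hι _ _).1 (Subtype.ext (by
      rw [AlgEquiv.mul_apply, r, (hι φ _).2 (ZMod.natCast_zmod_val _)]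
      simp [(hκ g _).2 (ZMod.natCast_zmod_val _), pow_add, mul_left_comm, mul_assoc, β']))
    simp [← this]
  · rw [prod_fiberwise]
    simpa using (congrArg Subtype.val (Algebra.norm_eq_prod_automorphisms F x)).symm

/-- **the splitting cochain** -/
theorem ex_eta (h : C1 F) (hζ : IsPrimitiveRoot ζ m) {α β : M} (α0 : α ≠ 0) (β0 : β ≠ 0) {a b : F}
    (ha : α ^ m = algebraMap F M a) (hb : β ^ m = algebraMap F M b) :
    ∃ η : (M ≃ₐ[F] M) → M, (∀ g, η g ≠ 0) ∧ ∀ g h (n : ℤ), g α = algebraMap F M ζ ^ n * α →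
      η (g * h) * (h β / β) ^ n = η g * g (η h) := by
  obtain ⟨κ, hκ⟩ := ex_ka hζ β0 hb
  obtain ⟨γ, g1, g2⟩ := ex_ga h hζ β0 hb hκ a
  have g0 : ∀ i, γ i ≠ 0 := fun i => prod_ne_zero_iff.1 (g2 ▸ ha ▸ pow_ne_zero _ α0) i (mem_univ i)
  have k := fun g => (hκ g _).2 (ZMod.natCast_zmod_val _)
  let E : ℕ → M := fun n => α ^ n / ∏ j ∈ range n, γ j
  have p : Function.Periodic E m := fun n => by
    have : ∏ j ∈ range m, γ (n + j : ℕ) = α ^ m := by
      rw [ha, ← g2, ← Equiv.prod_comp (Equiv.addLeft (n : ZMod m))]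
      exact prod_bij' (fun j _ => (j : ZMod m)) (fun i _ => i.val) (by simp) (by simp [ZMod.val_lt])
        (fun j hj => ZMod.val_cast_of_lt (mem_range.1 hj)) (by simp) (by simp)
    simp only [E, prod_range_add, this, pow_add, mul_div_mul_right _ _ (pow_ne_zero m α0)]
  refine ⟨fun g => E (κ g).val, fun g => div_ne_zero (pow_ne_zero _ α0)
    (prod_ne_zero_iff.2 fun _ _ => g0 _), fun g h n e => ?_⟩
  have : ((κ g).val + (κ h).val : ℕ) = κ (g * h) := (hκ _ _).1 (by
    rw [AlgEquiv.mul_apply, k h, map_mul, map_pow, g.commutes, k g]; ring)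
  beta_reduce
  rw [← this, ZMod.val_natCast, p.map_mod_nat, k h, mul_div_cancel_right₀ _ β0, ← zpow_natCast,
    ← zpow_mul, mul_comm _ n, zpow_mul, zpow_natCast]
  simp only [E, prod_range_add, map_div₀, map_pow, map_prod, e, g1, Nat.cast_add,
    ZMod.natCast_zmod_val]
  ring

end Vale.Agent.P014T.Ts
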