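import Vale.Agent.P014T.Ts.Act
import Vale.Agent.P014T.Ts.Eta

/-! # P014 T: the frame attached to a finite group of automorphisms of a function field -/

set_option linter.all false

open scoped Classical

noncomputable section

namespace Vale.Agent.P014T.Ts

open Vale.Agent.P019P P025H492 P027M.K Vale.Agent.P004H.H666 Kc Pu Function

section os

variable {G G' X X' E E' I J : Type} [Group G] [Group G'] [MulAction G X] [MulAction G' X']
  [AddCommGroup E] [AddCommGroup E'] {N N' : Subgroup G} {f g : X → E}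

/-- orbits -/
abbrev Ob (N : Subgroup G) (X : Type) [MulAction G X] : Type := MulAction.orbitRel.Quotient N X

/-- the sum over the orbits -/
def os (N : Subgroup G) (f : X → E) : E := ∑ᶠ o : Ob N X, f o.out

/-- invariant functions -/
def Ivt (N : Subgroup G) (f : X → E) : Prop := ∀ n ∈ N, ∀ P, f (n • P) = f P

/-- transversals -/
structure Tn (N N' : Subgroup G) (r : I → G) : Prop where
  le : N' ≤ N
  mem : ∀ i, r i ∈ N
  ex : ∀ n ∈ N, ∃ i, (r i)⁻¹ * n ∈ N'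
  un : ∀ i j, (r i)⁻¹ * r j ∈ N' → i = j

theorem ob_eq {P Q : X} : (⟦P⟧ : Ob N X) = ⟦Q⟧ ↔ ∃ n ∈ N, n • Q = P :=
  Quotient.eq.trans ⟨fun ⟨n, e⟩ => ⟨n, n.2, e⟩, fun ⟨n, h, e⟩ => ⟨⟨n, h⟩, e⟩⟩

theorem ex_out (N : Subgroup G) (P : X) : ∃ n ∈ N, n • (⟦P⟧ : Ob N X).out = P :=
  ob_eq.1 (Quotient.out_eq _).symm

theorem out_eq {o o' : Ob N X} {n : G} (h : n ∈ N) (e : n • o.out = o'.out) : o = o' := by
  rw [← o.out_eq, ← o'.out_eq, eq_comm]; exact ob_eq.2 ⟨n, h, e⟩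

theorem os_eq (h : Ivt N f) (g : J → X) (s : ∀ P, f P ≠ 0 → ∃ j, ∃ n ∈ N, n • g j = P)
    (i : ∀ i j, f (g i) ≠ 0 → ∀ n ∈ N, n • g i = g j → i = j) : os N f = ∑ᶠ j, f (g j) := by
  have e : ∀ j, f (g j) = f (⟦g j⟧ : Ob N X).out := fun j => by
    obtain ⟨n, l, e⟩ := ex_out N (g j)
    rw [← h n l (Quotient.out _), e]
  rw [os, ← finsum_mem_support, ← finsum_mem_support fun j => f (g j), eq_comm]
  refine finsum_mem_eq_of_bijOn (fun j => (⟦g j⟧ : Ob N X)) ⟨fun j l => ?_, fun j l j' _ e => ?_,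
    fun o l => ?_⟩ fun j _ => e j
  · exact fun e' => l ((e j).trans e')
  · obtain ⟨n, l', e⟩ := ob_eq.1 e.symm
    exact i _ _ l n l' e
  · obtain ⟨j, n, l', e⟩ := s _ l
    exact ⟨j, fun e' => l ((congrArg f e).symm.trans ((h n l' _).trans e')),
      (ob_eq.2 ⟨n, l', e⟩).symm.trans o.out_eq⟩

theorem os_map {N₁ : Subgroup G'} (h : Ivt N f) (π : X' → X) (s : Surjective π)
    (h1 : ∀ n' ∈ N₁, ∀ P, ∃ n ∈ N, π (n' • P) = n • π P)
    (h2 : ∀ P Q, ∀ n ∈ N, n • π P = π Q → ∃ n' ∈ N₁, n' • P = Q) :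
    os N₁ (fun P => f (π P)) = os N f :=
  (os_eq h (fun o : Ob N₁ X' => π o.out) (fun P _ => by
    obtain ⟨P, rfl⟩ := s P
    obtain ⟨n', l, e⟩ := ex_out N₁ P
    obtain ⟨n, l', e'⟩ := h1 n' l (⟦P⟧ : Ob N₁ X').out
    exact ⟨_, n, l', by rw [← e', e]⟩) fun _ _ _ n l e =>
      let ⟨_, l', e'⟩ := h2 _ _ n l e
      out_eq l' e').symm

theorem out_fin (h : (support f).Finite) : (support fun o : Ob N X => f o.out).Finite :=
  h.preimage Quotient.out_injective.injOn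

theorem os_add (h : (support f).Finite) (h' : (support g).Finite) :
    os N (fun P => f P + g P) = os N f + os N g := finsum_add_distrib (out_fin h) (out_fin h')

theorem os_hom (φ : E →+ E') (h : (support f).Finite) : os N (fun P => φ (f P)) = φ (os N f) :=
  (φ.map_finsum (out_fin h)).symm

theorem os_bot : os (⊥ : Subgroup G) f = ∑ᶠ P, f P :=
  os_eq (fun n l P => by rw [Subgroup.mem_bot.1 l, one_smul]) id
    (fun P _ => ⟨P, 1, one_mem _, one_smul _ _⟩) fun _ _ _ n l e => by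
      rwa [Subgroup.mem_bot.1 l, one_smul] at e

theorem os_tr [Fintype I] {r : I → G} (t : Tn N N' r) (h : Ivt N' f) (hf : (support f).Finite)
    (fr : ∀ P, f P ≠ 0 → ∀ n ∈ N, n • P = P → n = 1) :
    os N (fun P => ∑ i, f ((r i)⁻¹ • P)) = os N' f := by
  have i : ∀ u v : Ob N X × I, f ((r u.2)⁻¹ • u.1.out) ≠ 0 → ∀ n ∈ N',
      n • (r u.2)⁻¹ • u.1.out = (r v.2)⁻¹ • v.1.out → u = v := by
    rintro ⟨o, i⟩ ⟨o', j⟩ l n l' e
    obtain rfl : o = o' := out_eq (mul_mem (t.mem j) (mul_mem (t.le l') (inv_mem (t.mem i))))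
      (by simp only [mul_smul] at e ⊢; rw [e, smul_inv_smul])
    have := fr _ l _ (mul_mem (mul_mem (inv_mem (t.mem i)) (t.mem j)) (t.le l'))
      (by simp only [mul_smul] at e ⊢; rw [e, smul_inv_smul])
    rw [t.un i j (eq_inv_of_mul_eq_one_left this ▸ inv_mem l')]
  rw [os_eq h (fun u : Ob N X × I => (r u.2)⁻¹ • u.1.out) (fun P _ => ?_) i, finsum_curry]
  · simp only [finsum_eq_sum_of_fintype, os]
  · exact Set.Finite.preimage (f := fun u : Ob N X × I => (r u.2)⁻¹ • u.1.out) (s := support f)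
      (fun u l v _ e => i u v l 1 (one_mem _) (by rw [one_smul]; exact e)) hf
  · obtain ⟨n, l, e⟩ := ex_out N P
    obtain ⟨i, l'⟩ := t.ex _ (inv_mem l)
    exact ⟨(⟦P⟧, i), _, inv_mem l', by simpa [mul_smul] using e⟩

theorem Tn.tr {r : I → G} (t : Tn N N' r) : ∃ p, Tr N N' r p := Tr.of t.le t.mem t.ex t.un

end os

variable {k M M' : Type} [Field k] [Field M] [Field M'] [Algebra k M] [CFF k M] {a b : ℚ}
  {Γ N N' : Subgroup (SL k M)} {Y : Set (Plk k M)}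

/-- the fixed field -/
theorem ex_fix [Finite N] (h : ∀ n ∈ N, res0 n = 1) : ∃ F : IntermediateField k M, CFF k F ∧
    FiniteDimensional F M ∧ IsGalois F M ∧ (∀ x, x ∈ F ↔ ∀ n ∈ N, n.1 x = x) ∧
    (∀ σ : M ≃ₐ[F] M, autSL k σ ∈ N) ∧ ∀ n ∈ N, ∃ σ : M ≃ₐ[F] M, autSL k σ = n := by
  let F : IntermediateField k M := (FixedPoints.subfield N M).toIntermediateField fun c n =>
    (res0_spec n.1 c).trans (by rw [h n.1 n.2]; rfl)
  have f : FiniteDimensional F M := inferInstanceAs (FiniteDimensional (FixedPoints.subfield N M) M)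
  refine ⟨F, ?_, f, inferInstanceAs (IsGalois (FixedPoints.subfield N M) M),
    fun x => ⟨fun e n l => e ⟨n, l⟩, fun e n => e n.1 n.2⟩, fun σ => ?_, fun n l =>
    ⟨AlgEquiv.ofRingEquiv (f := n.1) fun x => x.2 ⟨n, l⟩, rfl⟩⟩
  · by_contra e
    have : Algebra.IsAlgebraic k F := ⟨fun x => not_not.1 fun l => e (cff_down (L := M) l)⟩
    obtain ⟨x, l, -⟩ := CFF.ex (k := k) (F := M)
    exact l ((Algebra.IsAlgebraic.trans k F M).1 x)
  · obtain ⟨n, e⟩ := FixedPoints.toAlgAut_surjective N M σ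
    rw [show autSL k σ = n from sl_ext fun x => (DFunLike.congr_fun e x).symm]
    exact n.2

theorem h1_un [Finite N] (h : ∀ n ∈ N, res0 n = 1) : H1 N (Un M) := fun c hc => by
  obtain ⟨F, -, _, _, -, h1, h2⟩ := ex_fix h
  obtain ⟨x, e⟩ := groupCohomology.isMulCoboundary₁_of_isMulCocycle₁_of_aut_to_units
    (fun σ : M ≃ₐ[F] M => Additive.toMul (α := Mˣ) (c (autSL k σ))) fun σ τ =>
      (hc _ (h1 σ) _ (h1 τ)).trans (add_comm _ _)
  refine ⟨Additive.ofMul x, fun n l => ?_⟩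
  obtain ⟨σ, rfl⟩ := h2 n l
  exact (e σ).symm

theorem ex_mq [Algebra M M'] {ξ : Pm M' a b} (h : ∀ x y n, ξ = .some x y n →
    x ∈ (algebraMap M M').range ∧ y ∈ (algebraMap M M').range) :
    ∃ ξ₀, mq (algebraMap M M') ξ₀ = ξ := by
  rcases ξ with _ | ⟨x, y, n⟩
  · exact ⟨0, rfl⟩
  obtain ⟨⟨x, rfl⟩, y, rfl⟩ := h x y n rfl
  refine ⟨.some x y ((WeierstrassCurve.Affine.map_nonsingular (crv (a : M) (b : M))
    (algebraMap M M').injective x y).1 ?_), mp_some _ _ _ _⟩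
  rwa [show (crv (a : M) (b : M)).map (algebraMap M M') = crv (a : M') (b : M') from
    P004M.TE.crv_map _ (map_ratCast _ a) (map_ratCast _ b)]

omit [CFF k M] in
theorem fx_xy {θ : SL k M} {x y : M} {n} (h : θ • (show Pm M a b from .some x y n) = .some x y n) :
    θ.1 x = x ∧ θ.1 y = y := by
  have := (mp_some _ _ _ n).symm.trans h
  injection this with e e'
  exact ⟨e, e'⟩

/-- the geometric data of a frame -/
structure Fm (Γ N : Subgroup (SL k M)) (Y : Set (Plk k M)) : Prop where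
  le : N ≤ Γ
  nz : ∀ x ∈ Γ, ∀ n ∈ N, x⁻¹ * n * x ∈ N
  fin : Finite N
  k1 : ∀ n ∈ N, res0 n = 1
  st : ∀ x ∈ Γ, ∀ P ∈ Y, x • P ∈ Y
  fr : ∀ n ∈ N, ∀ P ∈ Y, n • P = P → n = 1

theorem Fm.st' (A : Fm Γ N Y) {x : SL k M} (hx : x ∈ Γ) (P : Plk k M) : x • P ∈ Y ↔ P ∈ Y :=
  ⟨fun h => by simpa using A.st _ (inv_mem hx) _ h, A.st x hx P⟩

theorem Fm.mono (A : Fm Γ N Y) {Γ' : Subgroup (SL k M)} (h : Γ' ≤ Γ) (h' : N' ≤ N) (le : N' ≤ Γ')
    (nz : ∀ x ∈ Γ', ∀ n ∈ N', x⁻¹ * n * x ∈ N') : Fm Γ' N' Y :=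
  ⟨le, nz, have := A.fin; .of_injective _ (Subgroup.inclusion_injective h'),
    fun n l => A.k1 n (h' l), fun x l => A.st x (h l), fun n l => A.fr n (h' l)⟩

/-- coverings which are unramified on `Y'` -/
structure Cov [Algebra k M'] [CFF k M'] (s : M →+* M') (s₀ : k ≃+* k) (π : Plk k M' → Plk k M)
    (Y : Set (Plk k M)) (Y' : Set (Plk k M')) : Prop where
  hs : ∀ c, s (algebraMap k M c) = algebraMap k M' (s₀ c)
  mem : ∀ P x, s x ∈ P.1 ↔ x ∈ (π P).1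
  fin : ∀ P, (π ⁻¹' {P}).Finite
  sur : Surjective π
  y : ∀ P, P ∈ Y' ↔ π P ∈ Y
  ur : ∀ P ∈ Y', ∀ x, ord P (s x) = ord (π P) x

theorem cv_down [Algebra k M'] [CFF k M'] [Algebra M M'] [IsScalarTower k M M']
    [FiniteDimensional M M'] {Y' : Set (Plk k M')} (y : ∀ P, P ∈ Y' ↔ down M P ∈ Y)
    (h : ∀ P ∈ Y', ram M P = 1) : Cov (algebraMap M M') 1 (down M) Y Y' :=
  ⟨fun c => (IsScalarTower.algebraMap_apply k M M' c).symm, fun _ _ => Iff.rfl, over_finite,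
    exists_over, y, fun P l x => by rw [ord_algebraMap, h P l, Nat.cast_one, one_mul]⟩

theorem cv_iso [Algebra k M'] [CFF k M'] {e : M ≃+* M'} {s₀ : k ≃+* k}
    (hs : ∀ c, e (algebraMap k M c) = algebraMap k M' (s₀ c)) {Y' : Set (Plk k M')}
    (y : ∀ P, P ∈ Y' ↔ (plEquiv e s₀ hs).symm P ∈ Y) :
    Cov (e : M →+* M') s₀ (plEquiv e s₀ hs).symm Y Y' :=
  ⟨hs, fun _ _ => Iff.rfl, fun P => (Set.finite_singleton P).preimage (Equiv.injective _).injOn,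
    Equiv.surjective _, y, fun P _ x => by
      rw [← ord_plEquiv e s₀ hs, Equiv.apply_symm_apply]; rfl⟩

section cv

variable [Algebra k M'] [CFF k M'] {s : M →+* M'} {s₀ : k ≃+* k} {π : Plk k M' → Plk k M}
  {Y' : Set (Plk k M')} (C : Cov s s₀ π Y Y')

/-- pull back of functions on places -/
def Cov.pb : Dv k M →+ Dv k M' :=
  AddMonoidHom.mk' (fun d => Finsupp.ofSupportFinite (fun P => d (π P))
    (d.finite_support.preimage' fun P _ => C.fin P)) fun _ _ => Finsupp.ext fun _ => rfl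

theorem Cov.pb_apply (d : Dv k M) (P : Plk k M') : C.pb d P = d (π P) := rfl

theorem Cov.dY (u : Un M) : dY Y' (mu s u) = C.pb (dY Y u) := Finsupp.ext fun P => by
  rw [C.pb_apply, dY_apply, dY_apply, ← C.y]
  split_ifs with h
  exacts [C.ur P h _, rfl]

include C in
theorem Cov.sm {x : SL k M'} {x' : SL k M} (h : ∀ u, s (x'.1 u) = x.1 (s u)) (P : Plk k M') :
    π (x • P) = x' • π P := pl_ext fun u => by
  rw [← sl_inv x' u, ← C.mem, h, sm_mem, sm_mem, C.mem]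

end cv

variable [CharZero k] (hD : 4 * a ^ 3 + 27 * b ^ 2 ≠ 0) {ξ ξ' : Pm M a b} {d : Dv k M}

theorem sq_fin (ξ : Pm M a b) (d : Dv k M) : (support fun P => d P • sq hD P ξ).Finite :=
  d.finite_support.subset fun P h e => h (by simp [e])

/-- the sum of an invariant divisor -/
def SN (N : Subgroup (SL k M)) (ξ : Pm M a b) : Dv k M →+ Ep k a b :=
  AddMonoidHom.mk' (fun d => os N fun P => d P • sq hD P ξ) fun d d' => by
    simp only [Finsupp.add_apply, add_smul]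
    exact os_add (sq_fin hD ξ d) (sq_fin hD ξ d')

theorem SN_apply (d : Dv k M) : SN hD N ξ d = os N fun P => d P • sq hD P ξ := rfl

theorem SN_bot (d : Dv k M) : SN hD ⊥ ξ d = Sq hD ξ d := by
  rw [SN_apply, os_bot, finsum_eq_sum_of_support_subset (s := d.support) _ fun P h =>
    Finsupp.mem_support_iff.2 fun e => h (by simp [e])]
  rfl

theorem Sq_dv (ξ : Pm M a b) {x : M} (h : x ≠ 0) : Sq hD ξ (dv k x) = 0 := abel _ _ h

theorem SN_add (d : Dv k M) : SN hD N (ξ + ξ') d = SN hD N ξ d + SN hD N ξ' d := by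
  simp only [SN_apply, map_add, smul_add]
  exact os_add (sq_fin hD ξ d) (sq_fin hD ξ' d)

theorem SN_congr {d' : Dv k M} (e : ∀ P, d P = d' P ∨ sq hD P ξ = 0) :
    SN hD N ξ d = SN hD N ξ d' :=
  by
  rw [SN_apply, SN_apply]
  exact congrArg (os N) (funext fun P => by rcases e P with e | e <;> simp [e])

theorem sq_one {θ : SL k M} (h : res0 θ = 1) (P : Plk k M) (ξ : Pm M a b) :
    sq hD P (θ • ξ) = sq hD (θ⁻¹ • P) ξ := by
  rw [← ep_one h (sq hD _ ξ), ← sq_sm, smul_inv_smul]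

theorem ivt (k1 : ∀ n ∈ N, res0 n = 1) (hξ : Fx N ξ) (h : Fx N d) :
    Ivt N fun P => d P • sq hD P ξ := fun n l P => by
  dsimp only
  rw [← hξ n l, ← h n l, sq_one hD (k1 n l), dv_sm, inv_smul_smul, hξ n l, h n l]

/-- traces of divisors -/
theorem SN_trd {I : Type} [Fintype I] {r : I → SL k M} (A : Fm Γ N Y) (t : Tn N N' r)
    (c : ∀ P ∉ Y, sq hD P ξ = 0) (hξ : Fx N ξ) (h : Fx N' d) :
    SN hD N ξ (∑ i, r i • d) = SN hD N' ξ d := by
  rw [SN_apply, SN_apply, ← os_tr t (ivt hD (fun n l => A.k1 n (t.le l)) (fun n l => hξ n (t.le l)) h)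
    (sq_fin hD ξ d) fun P e n l => A.fr n l P (not_not.1 fun l => e (by simp [c P l]))]
  refine congrArg (os N) (funext fun P => ?_)
  rw [Finsupp.finset_sum_apply, Finset.sum_smul]
  exact Finset.sum_congr rfl fun i _ => by
    rw [dv_sm, ← sq_one hD (A.k1 _ (t.mem i)), hξ _ (t.mem i)]

/-- traces of points -/
theorem SN_trx {I : Type} [Fintype I] {r : I → SL k M} (A : Fm Γ N Y) (t : Tn N N' r)
    (c : ∀ P ∉ Y, sq hD P ξ = 0) (hξ : Fx N' ξ) (h : Fx N d) :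
    SN hD N (∑ i, r i • ξ) d = SN hD N' ξ d := by
  rw [SN_apply, SN_apply, ← os_tr t (ivt hD (fun n l => A.k1 n (t.le l)) hξ fun n l => h n (t.le l))
    (sq_fin hD ξ d) fun P e n l => A.fr n l P (not_not.1 fun l => e (by simp [c P l]))]
  refine congrArg (os N) (funext fun P => ?_)
  rw [map_sum, Finset.smul_sum]
  exact Finset.sum_congr rfl fun i _ => by
    rw [← dv_sm, sq_one hD (A.k1 _ (t.mem i)), h _ (t.mem i)]

section cv

variable [Algebra k M'] [CFF k M'] {s : M →+* M'} {s₀ : k ≃+* k} {π : Plk k M' → Plk k M}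
  {Y' : Set (Plk k M')} (C : Cov s s₀ π Y Y') {Γ₁ N₁ : Subgroup (SL k M')}

include C in
theorem Cov.sq (P : Plk k M') (ξ : Pm M a b) : sq hD P (mq s ξ) = ea s₀ (sq hD (π P) ξ) :=
  sq_map hD C.hs (C.mem P) ξ

theorem Cov.SN (k1 : ∀ n ∈ N, res0 n = 1) (hξ : Fx N ξ) (h : Fx N d)
    (h1 : ∀ n' ∈ N₁, ∃ n ∈ N, ∀ u, s (n.1 u) = n'.1 (s u))
    (h2 : ∀ P Q, ∀ n ∈ N, n • π P = π Q → ∃ n' ∈ N₁, n' • P = Q) :
    SN hD N₁ (mq s ξ) (C.pb d) = ea s₀ (SN hD N ξ d) := by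
  rw [SN_apply, SN_apply, ← os_hom _ (sq_fin hD ξ d), ← os_map (f := fun P => ea s₀ (d P • Ts.sq hD P ξ))
    (fun n l P => congrArg (ea s₀) (ivt hD k1 hξ h n l P)) π C.sur (fun n' l P => (h1 n' l).imp fun n e => ⟨e.1, C.sm e.2 P⟩) h2]
  simp only [C.pb_apply, C.sq hD, map_zsmul]

/-- **maps of frames** -/
theorem Cov.mp (f : SL k M' → SL k M) (hf : ∀ x ∈ Γ₁, ∀ u, s ((f x).1 u) = x.1 (s u))
    (mem : ∀ x ∈ Γ₁, f x ∈ Γ) (geo : ∀ x ∈ N₁, f x ∈ N) (le : N₁ ≤ Γ₁)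
    (k1 : ∀ n ∈ N, res0 n = 1) (hξ : Fx N ξ)
    (h2 : ∀ P Q, ∀ n ∈ N, n • π P = π Q → ∃ n' ∈ N₁, n' • P = Q) :
    Mp Γ N (Ts.dY Y) (Ts.SN hD N ξ) Γ₁ N₁ (Ts.dY Y') (Ts.SN hD N₁ (mq s ξ)) f (mu s) C.pb (ea s₀) :=
  ⟨fun x l y l' => sl_ext fun u => s.injective (by
      rw [hf _ (mul_mem l l'), sl_mul, sl_mul, hf x l, hf y l']), mem, geo, le,
    fun x l u => vv_inj (hf x l _), fun x l d => Finsupp.ext fun P => by
      rw [← smul_inv_smul x P, C.pb_apply, C.sm (hf x l), dv_sm, dv_sm, inv_smul_smul,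
        inv_smul_smul, C.pb_apply],
    fun x l e => (mq_mq _ _ ((s₀ : k →+* k).comp (res0 (f x))) (fun _ => rfl) e).trans (mq_mq _ _ _ (fun c =>
      (algebraMap k M').injective (by
        have := hf x l (algebraMap k M c)
        rw [res0_spec, C.hs, C.hs, res0_spec] at this
        exact this)) e).symm,
    C.dY, fun d h => C.SN hD k1 hξ h (fun n l => ⟨_, geo n l, hf n (le l)⟩) h2⟩

end cv

theorem ea_one (e : Ep k a b) : ea 1 e = e := mq_id _ (fun _ => rfl) e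

/-- the covering of the quotient -/
theorem Fm.cv (A : Fm Γ N Y) {F : IntermediateField k M} [CFF k F] [FiniteDimensional F M]
    [IsGalois F M] (h : ∀ σ : M ≃ₐ[F] M, autSL k σ ∈ N) :
    Cov (algebraMap F M) 1 (down F) (down F '' Y) Y ∧
      ∀ P Q : Plk k M, down F P = down F Q → ∃ n ∈ N, n • P = Q := by
  have t : ∀ P Q : Plk k M, down F P = down F Q → ∃ n ∈ N, n • P = Q := fun P Q e =>
    let ⟨σ, e⟩ := exists_conj_eq e
    ⟨_, h σ, e⟩
  refine ⟨cv_down (fun P => ⟨fun l => ⟨P, l, rfl⟩, fun ⟨Q, l, e⟩ => ?_⟩) fun P l =>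
    (ram_eq_one_iff P).2 (eq_bot_iff.2 fun σ e => AlgEquiv.ext fun x =>
      congrArg (·.1 x) (A.fr _ (h σ) P l e)), t⟩
  obtain ⟨n, l', rfl⟩ := t Q P e
  exact A.st n (A.le l') Q l

/-- **the frame** -/
theorem Fm.frame (A : Fm Γ N Y) (hξ : Fx Γ ξ) (c : ∀ P ∉ Y, sq hD P ξ = 0) :
    Fr Γ N (dY Y) (SN hD N ξ) := by
  have := A.fin
  have hN : Fx N ξ := fun n l => hξ n (A.le l)
  refine ⟨A.le, A.nz, fun x l => dY_sm (A.st' l), fun x l d h => ?_, fun u h => ?_,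
    fun e n l => ep_one (A.k1 n l) e, h1_un A.k1, h1_dv N⟩
  · have C : Cov (x.1 : M →+* M) (res0 x) (x⁻¹ • ·) Y Y :=
      cv_iso (res0_spec x) fun P => (A.st' (inv_mem l) P).symm
    have := C.SN hD A.k1 hN h (N₁ := N) (fun n l' => ⟨_, A.nz x l n l', fun u => sl_inv x _⟩)
      fun P Q n l' e => ⟨x⁻¹⁻¹ * n * x⁻¹, A.nz _ (inv_mem l) n l', by
        simp only [mul_smul] at e ⊢; rw [e, inv_smul_smul]⟩
    rwa [← pm_sm, hξ x l, show C.pb d = x • d from Finsupp.ext fun P => (dv_sm x d P).symm] at this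
  obtain ⟨F, _, _, _, h0, h1, -⟩ := ex_fix A.k1
  obtain ⟨C, t⟩ := A.cv h1
  obtain ⟨ξ, rfl⟩ := ex_mq (M := F) (ξ := ξ) fun x y n e => by
    subst e
    exact ⟨⟨⟨x, (h0 x).2 fun g l => (fx_xy (hN g l)).1⟩, rfl⟩,
      ⟨y, (h0 y).2 fun g l => (fx_xy (hN g l)).2⟩, rfl⟩
  obtain ⟨u, rfl⟩ : ∃ u', mu (algebraMap F M) u' = u :=
    ⟨un' ⟨vv u, (h0 _).2 fun g l => congrArg vv (h g l)⟩ fun e => vv_ne u (congrArg (·.1) e),
      vv_inj rfl⟩
  have b : ∀ n ∈ (⊥ : Subgroup (SL k F)), n = 1 := fun _ => Subgroup.mem_bot.1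
  rw [C.dY, C.SN hD (N := ⊥) (fun n l => by rw [b n l, map_one]) (fun n l => by rw [b n l, one_smul])
    (fun n l => by rw [b n l, one_smul]) (fun n l => ⟨1, one_mem _, fun u =>
      ((h0 _).1 u.2 n l).symm⟩) (fun P Q n l e => t P Q (by rwa [b n l, one_smul] at e)), ea_one,
    SN_congr hD (d' := dv k (vv u)) fun P => ?_, SN_bot]
  · exact Sq_dv hD _ (vv_ne u)
  obtain ⟨P, rfl⟩ := C.sur P
  by_cases l : P ∈ Y
  · exact .inl (by rw [dY_apply, if_pos ((C.y P).1 l), dv_apply])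
  · exact .inr (by rw [← ea_one (sq hD _ ξ), ← C.sq hD, c P l])

omit [CharZero k] in
theorem ze {m : ℕ} {ζ : kˣ} (h : ζ ^ m = 1) (f : ∀ x ∈ Γ, res0 x ζ = ζ) :
    Ze Γ (dY Y) m (cu M ζ) :=
  ⟨fun x l => vv_inj (by rw [vv_smul, vv_cu, res0_spec, f x l]),
    vv_inj (by rw [vv_nsmul, vv_cu, ← map_pow, ← Units.val_pow_eq_pow_val, h]; simp [vv_zero]),
    dY_cu Y ζ⟩

omit [CharZero k] [CFF k M] in
theorem ex_cu {m : ℕ} (m0 : m ≠ 0) {ζ : kˣ} (hζ : IsPrimitiveRoot ζ m) (u : Un M) (h : m • u = 0) :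
    ∃ c : ℤ, u = c • cu M ζ := by
  have : NeZero m := ⟨m0⟩
  obtain ⟨i, -, e⟩ := ((IsPrimitiveRoot.coe_units_iff.2 hζ).map_of_injective
    (algebraMap k M).injective).eq_pow_of_pow_eq_one (ξ := vv u) (by rw [← vv_nsmul, h, vv_zero])
  exact ⟨i, vv_inj (by rw [vv_zsmul, vv_cu, zpow_natCast, e])⟩

/-- **existence of the class of a symbol** -/
theorem Fm.ex (A : Fm Γ N Y) (hξ : Fx Γ ξ) (c : ∀ P ∉ Y, sq hD P ξ = 0) {m : ℕ} (m0 : m ≠ 0)
    {ζ : kˣ} (hζ : IsPrimitiveRoot ζ m) (f : ∀ x ∈ Γ, res0 x ζ = ζ)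
    (hE : ∀ e : Ep k a b, ∃ q, m • q = e) {α β : Un M} (hα : Fx Γ (m • α)) (hβ : Fx Γ (m • β)) :
    ∃ z, Sym Γ N (dY Y) (SN hD N ξ) m (cu M ζ) α β z := by
  have := A.fin
  have : NeZero m := ⟨m0⟩
  obtain ⟨F, C, _, _, h0, h1, h2⟩ := ex_fix A.k1
  obtain ⟨u, hu⟩ := Rt.ex (ex_cu m0 hζ) hα
  obtain ⟨v, hv⟩ := Rt.ex (ex_cu m0 hζ) hβ
  have := C.ac
  obtain ⟨t, t1, t2⟩ := C.ex
  obtain ⟨η, e0, e1⟩ := ex_eta (tsen t1 fun x => .of_finite _ x)
    ((IsPrimitiveRoot.coe_units_iff.2 hζ).map_of_injective (algebraMap k F).injective)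
    (vv_ne α) (vv_ne β) (a := ⟨vv (m • α), (h0 _).2 fun g l => congrArg vv (hα g (A.le l))⟩)
    (b := ⟨vv (m • β), (h0 _).2 fun g l => congrArg vv (hβ g (A.le l))⟩) (vv_nsmul m α).symm
    (vv_nsmul m β).symm
  choose! σ hσ using h2
  have a1 : ∀ g ∈ N, ∀ x, σ g x = g.1 x := fun g l x => congrArg (·.1 x) (hσ g l)
  refine Sym.ex (A.frame hD hξ c) (ze hζ.pow_eq_one f) hE hu hv (fun g => un' _ (e0 (σ g)))
    fun g l h l' n e => vv_inj ?_
  have := e1 (σ g) (σ h) n (by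
    rw [a1 g l, ← div_eq_iff (vv_ne α)]
    exact (vv_sub _ _).symm.trans ((congrArg vv e).trans (vv_zsmul _ _)))
  rw [show σ g * σ h = σ (g * h) from AlgEquiv.ext fun x => by
    rw [AlgEquiv.mul_apply, a1 _ (mul_mem l l'), a1 g l, a1 h l', sl_mul], a1 h l', a1 g l] at this
  rw [vv_add, vv_zsmul, vv_sub]
  exact this

end Vale.Agent.P014T.Ts
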