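import Vale.Agent.P014T.Ts.Sm

/-! # P014 T: levels and admissible fields in an algebraically closed field -/

set_option linter.all false

open scoped Classical

noncomputable section

namespace Vale.Agent.P014T.Ts

open Vale.Agent.P019P P025H492 P027M.K Vale.Agent.P004H.H666 Kc Pu IntermediateField

section rs

variable {k M M' : Type} [Field k] [Field M] [Field M'] [Algebra k M] [Algebra k M']
  {ι : M →+* M'} {θ η : SL k M'} {θ' η' : SL k M}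

/-- `θ'` is the restriction of `θ` -/
def Rs (ι : M →+* M') (θ : SL k M') (θ' : SL k M) : Prop := ∀ x, ι (θ'.1 x) = θ.1 (ι x)

/-- the restriction -/
def rs (ι : M →+* M') (θ : SL k M') : SL k M := if h : ∃ θ', Rs ι θ θ' then h.choose else 1

theorem Rs.un (h : Rs ι θ θ') (h' : Rs ι θ η') : θ' = η' :=
  sl_ext fun x => ι.injective ((h x).trans (h' x).symm)

theorem Rs.eq (h : Rs ι θ θ') : rs ι θ = θ' := by
  rw [rs, dif_pos ⟨_, h⟩]; exact (Exists.choose_spec ⟨θ', h⟩).un h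

theorem Rs.mul (h : Rs ι θ θ') (h' : Rs ι η η') : Rs ι (θ * η) (θ' * η') := fun x => by
  rw [sl_mul, sl_mul, h, h']

theorem Rs.inv (h : Rs ι θ θ') : Rs ι θ⁻¹ θ'⁻¹ := fun x => by
  rw [← sl_inv' θ (ι _), ← h, sl_inv]

theorem rs_one : Rs ι (1 : SL k M') 1 := fun _ => rfl

theorem Rs.res (h : Rs ι θ θ') (e : ∀ c, ι (algebraMap k M c) = algebraMap k M' c) :
    res0 θ' = res0 θ := (res0_eq fun c => by rw [← e, ← h, res0_spec, e]).symm

theorem Rs.mu (h : Rs ι θ θ') (u : Un M) : mu ι (θ' • u) = θ • mu ι u := vv_inj (h _)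

theorem Rs.mq {a b : ℚ} (h : Rs ι θ θ') (ξ : Pm M a b) : mq ι (θ' • ξ) = θ • mq ι ξ :=
  (mq_mq (θ'.1 : M →+* M) ι (ι.comp θ'.1) (fun _ => rfl) ξ).trans
    (mq_mq ι (θ.1 : M' →+* M') (ι.comp θ'.1) (fun x => h x) ξ).symm

/-- the group of restrictions -/
def im (ι : M →+* M') (H : Subgroup (SL k M')) : Subgroup (SL k M) where
  carrier := {θ' | ∃ θ ∈ H, Rs ι θ θ'}
  one_mem' := ⟨1, one_mem _, rs_one⟩
  mul_mem' := fun ⟨_, l, h⟩ ⟨_, l', h'⟩ => ⟨_, mul_mem l l', h.mul h'⟩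
  inv_mem' := fun ⟨_, l, h⟩ => ⟨_, inv_mem l, h.inv⟩

theorem im_mono {H H' : Subgroup (SL k M')} (h : H ≤ H') : im ι H ≤ im ι H' :=
  fun _ ⟨θ, l, e⟩ => ⟨θ, h l, e⟩

end rs

variable {k Ω : Type} [Field k] [Field Ω] [Algebra k Ω] {F F' M M' M₀ : IntermediateField k Ω}
  {H H' : Subgroup (SL k Ω)} {θ : SL k Ω} {j j' x : Ω}

/-- the embedding of a subfield -/
abbrev io (M : IntermediateField k Ω) : M →+* Ω := algebraMap M Ω

/-- the inclusion -/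
def inc (h : M ≤ M') : M →+* M' := (inclusion h).toRingHom

/-- the automorphisms over a subfield -/
def Fi (F : IntermediateField k Ω) : Subgroup (SL k Ω) := fxs k F

theorem Fi.res (h : θ ∈ Fi F) : res0 θ = 1 := res0_eq fun c => h _ (F.algebraMap_mem c)

theorem fi_anti (h : F ≤ F') : Fi F' ≤ Fi F := fun _ l x e => l x (h e)

/-- the preimage of a subfield -/
def cm (θ : SL k Ω) (M : IntermediateField k Ω) : IntermediateField k Ω :=
  (M.toSubfield.comap (θ.1 : Ω →+* Ω)).toIntermediateField fun c =>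
    show θ.1 _ ∈ M from res0_spec θ c ▸ M.algebraMap_mem _

theorem mem_cm : x ∈ cm θ M ↔ θ.1 x ∈ M := Iff.rfl

theorem sm_cm : θ.1 x ∈ cm θ⁻¹ M ↔ x ∈ M := by rw [mem_cm, sl_inv']

theorem cm_fg (h : M.FG) : (cm θ M).FG := by
  obtain ⟨S, hS, rfl⟩ := fg_def.1 h
  refine fg_def.2 ⟨_, hS.image (θ⁻¹).1, le_antisymm (adjoin_le_iff.2 ?_) fun x l => ?_⟩
  · rintro _ ⟨x, l, rfl⟩
    exact mem_cm.2 ((sl_inv θ x).symm ▸ subset_adjoin _ _ l)
  · have : adjoin k S ≤ cm θ⁻¹ (adjoin k ((θ⁻¹).1 '' S)) :=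
      adjoin_le_iff.2 fun x l => subset_adjoin _ _ ⟨x, l, rfl⟩
    exact sm_cm.1 (this l)

/-- the fixed field of an automorphism -/
def fx (h : res0 θ = 1) : IntermediateField k Ω :=
  (RingHom.eqLocusField (θ.1 : Ω →+* Ω) (RingHom.id Ω)).toIntermediateField fun c =>
    (res0_spec θ c).trans (by rw [h]; rfl)

theorem mem_fi (h : res0 θ = 1) : θ ∈ Fi F ↔ F ≤ fx h := Iff.rfl

/-- stable subfields -/
def Stb (M : IntermediateField k Ω) (H : Subgroup (SL k Ω)) : Prop := ∀ θ ∈ H, M ≤ cm θ M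

theorem Stb.ap (h : Stb M H) (l : θ ∈ H) (e : x ∈ M) : θ.1 x ∈ M := h θ l e

theorem Stb.iff (h : Stb M H) (l : θ ∈ H) (x : Ω) : θ.1 x ∈ M ↔ x ∈ M :=
  ⟨fun e => sm_cm.1 (h _ (inv_mem l) e), fun e => h θ l e⟩

theorem Stb.mono (h : Stb M H) (l : H' ≤ H) : Stb M H' := fun θ e => h θ (l e)

theorem stb_fi : Stb F (Fi F) := fun θ l x e => mem_cm.2 ((l x e).symm ▸ e)

/-- the isomorphism of a subfield with its image -/
def cme (h : ∀ x, θ.1 x ∈ M' ↔ x ∈ M) : M ≃+* M' where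
  toFun x := ⟨θ.1 x, (h x).2 x.2⟩
  invFun y := ⟨(θ⁻¹).1 y, (h _).1 ((sl_inv θ y).symm ▸ y.2)⟩
  left_inv x := Subtype.ext (sl_inv' θ x)
  right_inv x := Subtype.ext (sl_inv θ x)
  map_mul' _ _ := Subtype.ext (map_mul θ.1 _ _)
  map_add' _ _ := Subtype.ext (map_add θ.1 _ _)

theorem cme_k (h : ∀ x, θ.1 x ∈ M' ↔ x ∈ M) (c : k) :
    cme h (algebraMap k M c) = algebraMap k M' (res0 θ c) := Subtype.ext (res0_spec θ c)

theorem Stb.rs (h : Stb M H) (l : θ ∈ H) : Rs (io M) θ (rs (io M) θ) := by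
  have : Rs (io M) θ ⟨cme (h.iff l), _, cme_k _⟩ := fun _ => rfl
  rwa [this.eq]

theorem Stb.mem (h : Stb M H) (e : H' ≤ H) (l : θ ∈ H') : Ts.rs (io M) θ ∈ im (io M) H' :=
  ⟨θ, l, h.rs (e l)⟩

theorem Stb.mul (h : Stb M H) (l : θ ∈ H) {η} (l' : η ∈ H) :
    Ts.rs (io M) (θ * η) = Ts.rs (io M) θ * Ts.rs (io M) η := ((h.rs l).mul (h.rs l')).eq

theorem Rs.ep {a b : ℚ} {θ' : SL k M} (h : Rs (io M) θ θ') (e : Ep k a b) : θ' • e = θ • e := by
  rw [ep_sm, ep_sm, h.res fun _ => rfl]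

theorem Rs.inc (h : M ≤ M') {x : SL k M} {x' : SL k M'} (e : Rs (io M) θ x) (e' : Rs (io M') θ x') :
    Rs (inc h) x' x := fun u => Subtype.ext ((e u).trans (e' (Ts.inc h u)).symm)

/-- the places which are finite for `j` -/
def Yj (M : IntermediateField k Ω) (j : Ω) : Set (Plk k M) := {P | ∀ x : M, ↑x = j → x ∈ P.1}

theorem mem_yj (h : j ∈ M) {P : Plk k M} : P ∈ Yj M j ↔ ⟨j, h⟩ ∈ P.1 :=
  ⟨fun l => l _ rfl, fun l x e => by subst e; exact l⟩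

/-- `j'` is finite where `j` is finite -/
def Dm (k : Type) [Field k] [Algebra k Ω] (j j' : Ω) : Prop :=
  ∀ (M : IntermediateField k Ω) (x y : M), ↑x = j → ↑y = j' → ∀ P : Plk k M, x ∈ P.1 → y ∈ P.1

theorem Dm.rfl : Dm k j j := fun _ _ _ e e' _ l => Subtype.ext (e.trans e'.symm) ▸ l

theorem Dm.sub (h : Dm k j j') (l : j ∈ M) : Yj M j ⊆ Yj M j' := fun P e y e' =>
  h M ⟨j, l⟩ y (Eq.refl _) e' P (e _ (Eq.refl _))

theorem Dm.conj (h : Dm k j j') (θ : SL k Ω) : Dm k (θ.1 j) (θ.1 j') := fun M x y e e' P l => by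
  have c : ∀ x, θ.1 x ∈ M ↔ x ∈ cm θ M := fun _ => Iff.rfl
  have := h _ ((cme c).symm x) ((cme c).symm y) (by rw [← sl_inv' θ j, ← e]; rfl)
    (by rw [← sl_inv' θ j', ← e']; rfl) ((plEquiv _ _ (cme_k c)).symm P)
    (show cme c _ ∈ P.1 by simpa using l)
  simpa using show cme c _ ∈ P.1 from this

theorem Dm.of_int (h : IsIntegral (Algebra.adjoin k {j}) j') : Dm k j j' := by
  rintro M x y rfl rfl P l
  let S : Subalgebra k Ω := { P.1.toSubring.map (io M) with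
    algebraMap_mem' := fun c => ⟨algebraMap k M c, P.2.1 c, Eq.refl _⟩ }
  have e : Algebra.adjoin k {(x : Ω)} ≤ S :=
    Algebra.adjoin_le (Set.singleton_subset_iff.2 ⟨x, l, Eq.refl _⟩)
  have e' : Algebra.adjoin k {(x : Ω)} ≤ M.toSubalgebra :=
    Algebra.adjoin_le (Set.singleton_subset_iff.2 x.2)
  refine mem_of_integral P.1 (show _ →+* M from (Subalgebra.inclusion e').toRingHom) (fun z => ?_)
    (RingHom.IsIntegralElem.of_map (io M).injective h)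
  obtain ⟨u, l, e⟩ := e z.2
  exact (show u = Subalgebra.inclusion e' z from Subtype.ext e) ▸ l

theorem yj_iso (h : ∀ x, θ.1 x ∈ M' ↔ x ∈ M) (P : Plk k M') :
    P ∈ Yj M' (θ.1 j) ↔ (plEquiv _ _ (cme_k h)).symm P ∈ Yj M j :=
  ⟨fun l x e => l (cme h x) (congrArg θ.1 e), fun l y e => by
    simpa using show cme h _ ∈ P.1 from l ((cme h).symm y) (by rw [← sl_inv' θ j, ← e]; rfl)⟩

theorem fg_of_cff [h : CFF k M] : M.FG := by
  obtain ⟨t, -, _⟩ := h.ex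
  have : Algebra.EssFiniteType k k⟮t⟯ := essFiniteType_iff.2 (fg_adjoin_of_finite (by simp))
  exact essFiniteType_iff.1 (.comp k k⟮t⟯ M)

theorem cov_le [CFF k M] [CFF k M'] (h : M ≤ M') (t : Transcendental k j) (l : j ∈ M) :
    ∃ π, Cov (inc h) (1 : k ≃+* k) π ∅ ∅ ∧ (∀ P, P ∈ Yj M' j ↔ π P ∈ Yj M j) ∧
      ∀ P x, ord P (inc h x) = 1 → ∀ x, ord P (inc h x) = ord (π P) x := by
  let _ := (inc h).toAlgebra
  have : IsScalarTower k M M' := .of_algebraMap_eq fun _ => rfl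
  have : FiniteDimensional M M' := finite_of_transcendental (k := k) (x := ⟨j, l⟩)
    ((transcendental_algebraMap_iff (io M).injective).1 t)
  refine ⟨down M, cv_down (by simp) (by simp), fun P => ?_, fun P x e y => ?_⟩
  · rw [mem_yj l, mem_yj (h l)]; rfl
  · exact (ord_algebraMap P y).trans (by rw [ram_eq_one_of_exists e, Nat.cast_one, one_mul])

/-- levels -/
structure Lev (j : Ω) (F : IntermediateField k Ω) (H : Subgroup (SL k Ω)) : Prop where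
  tr : Transcendental k j
  alg : ∀ x : Ω, IsAlgebraic k⟮j⟯ x
  jm : j ∈ F
  fg : F.FG
  le : Fi F ≤ H
  st : Stb F H
  dm : ∀ θ ∈ H, Dm k j (θ.1 j)

/-- admissible fields -/
structure Adm (j : Ω) (F : IntermediateField k Ω) (H : Subgroup (SL k Ω))
    (M : IntermediateField k Ω) : Prop where
  fg : M.FG
  le : F ≤ M
  st : Stb M H
  fr : ∀ ν ∈ Fi F, ∀ n, Rs (io M) ν n → ∀ P ∈ Yj M j, n • P = P → ν ∈ Fi M

theorem Lev.mono (L : Lev j F H) (h : H' ≤ H) (h' : Fi F ≤ H') : Lev j F H' :=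
  ⟨L.tr, L.alg, L.jm, L.fg, h', L.st.mono h, fun θ l => L.dm θ (h l)⟩

theorem Lev.dm' (L : Lev j F H) (l : θ ∈ H) : Dm k (θ.1 j) j := by
  simpa only [sl_inv] using (L.dm _ (inv_mem l)).conj θ

theorem Lev.nz (L : Lev j F H) (l : θ ∈ H) {n} (l' : n ∈ Fi F) : θ⁻¹ * n * θ ∈ Fi F :=
  fun x e => by rw [sl_mul, sl_mul, l' _ (L.st.ap l e), sl_inv']

theorem Lev.adm (L : Lev j F H) : Adm j F H F := ⟨L.fg, le_rfl, L.st, fun _ l _ _ _ _ _ => l⟩

theorem Adm.mono (A : Adm j F H M) (h : H' ≤ H) (h1 : F ≤ F') (h2 : F' ≤ M) : Adm j F' H' M :=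
  ⟨A.fg, h2, A.st.mono h, fun ν l => A.fr ν (fi_anti h1 l)⟩

theorem Adm.conj (A : Adm j F H M) (hF : ∀ x, θ.1 x ∈ F' ↔ x ∈ F)
    (hH : ∀ x ∈ H', θ⁻¹ * x * θ ∈ H) (d : Yj (cm θ⁻¹ M) j' ⊆ Yj (cm θ⁻¹ M) (θ.1 j)) :
    Adm j' F' H' (cm θ⁻¹ M) := by
  have c : ∀ x, θ.1 x ∈ cm θ⁻¹ M ↔ x ∈ M := fun _ => sm_cm
  refine ⟨cm_fg A.fg, fun x l => A.le ((hF _).1 ((sl_inv θ x).symm ▸ l)), fun η l x e => ?_,
    fun ν l n r P y e x l' => ?_⟩
  · simpa only [mem_cm, sl_mul, sl_inv] using A.st.ap (hH η l) (mem_cm.1 e)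
  have := A.fr (θ⁻¹ * ν * θ) (fun x e => by rw [sl_mul, sl_mul, l _ ((hF x).2 e), sl_inv'])
    ⟨(cme c).trans (n.1.trans (cme c).symm), res0 (θ⁻¹ * ν * θ), fun u => Subtype.ext (by
      refine Eq.trans ?_ (res0_spec _ u)
      exact congrArg (θ⁻¹).1 (r _))⟩ (fun u => congrArg (θ⁻¹).1 (r _)) _ ((yj_iso c P).1 (d y))
    (pl_ext fun u => by
      refine Iff.trans ?_ ((show cme c u ∈ (n • P).1 ↔ cme c u ∈ P.1 by rw [e]))
      exact (show cme c ((cme c).symm _) ∈ P.1 ↔ _ by rw [RingEquiv.apply_symm_apply]; rfl))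
    ((θ⁻¹).1 x) l'
  simpa only [sl_mul, sl_inv, EmbeddingLike.apply_eq_iff_eq] using this

theorem gal_of {K : Type} [Field K] [Algebra K Ω] [IsAlgClosed Ω] [CharZero K]
    (h : ∀ x : Ω, IsAlgebraic K x) : IsGalois K Ω :=
  have : IsAlgClosure K Ω := ⟨inferInstance, ⟨h⟩⟩
  inferInstance

theorem Lev.yj (L : Lev j F H) (h : j ∈ M) (l : θ ∈ H) {n} (r : Rs (io M) θ n) {P}
    (y : P ∈ Yj M j) : n • P ∈ Yj M j := fun x e =>
  (L.dm _ (inv_mem l)).sub h y _ ((r.inv x).trans (congrArg _ e))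

theorem Lev.mem [IsAlgClosed Ω] [CharZero k] (L : Lev j F H) (h : ∀ θ ∈ Fi F, θ.1 x = x) :
    x ∈ F := by
  have : CharZero F := charZero_of_injective_algebraMap (algebraMap k F).injective
  have : IsGalois F Ω := gal_of fun x => (L.alg x).tower_top_of_subalgebra_le
    (B := F.toSubalgebra) (adjoin_simple_le_iff.2 L.jm)
  obtain ⟨y, rfl⟩ := (InfiniteGalois.mem_range_algebraMap_iff_fixed (k := F) x).2 fun σ =>
    h (autSL k σ) fun u l => σ.commutes ⟨u, l⟩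
  exact y.2

variable [IsAlgClosed k]

theorem Lev.cff (L : Lev j F H) (l : j ∈ M) (h : M.FG) : CFF k M := by
  let t : M := ⟨j, l⟩
  have := essFiniteType_iff.2 h
  have : Algebra.EssFiniteType k⟮t⟯ M := .of_comp k _ _
  have : Algebra.IsAlgebraic k⟮t⟯ M := ⟨fun x => (L.alg x).of_ringHom_of_comp_eq
    ((liftAlgEquiv k⟮t⟯).trans (equivOfEq (lift_adjoin_simple k M t))) (io M)
    (AlgEquiv.surjective _) (io M).injective (RingHom.ext fun _ => rfl)⟩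
  exact ⟨inferInstance, t, (transcendental_algebraMap_iff (io M).injective).1 L.tr,
    Algebra.finite_of_essFiniteType_of_isAlgebraic⟩

theorem Adm.cff (L : Lev j F H) (A : Adm j F H' M) : CFF k M := L.cff (A.le L.jm) A.fg

theorem Lev.fin (L : Lev j F H) [CFF k M] (l : F ≤ M) : Finite (im (io M) (Fi F)) := by
  let t : M := ⟨j, l L.jm⟩
  have : FiniteDimensional k⟮t⟯ M := finite_of_transcendental (k := k) (x := AdjoinSimple.gen k t)
    ((transcendental_algebraMap_iff (A := Ω) (algebraMap k⟮t⟯ Ω).injective).1 L.tr)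
  refine (Set.finite_range (autSL k (K := k⟮t⟯))).subset ?_
  rintro n ⟨ν, l', r⟩
  have : k⟮t⟯ ≤ fx ((r.res fun _ => rfl).trans (Fi.res l')) :=
    adjoin_simple_le_iff.2 (Subtype.ext ((r t).trans (l' j L.jm)))
  exact ⟨AlgEquiv.ofRingEquiv (f := n.1) fun x => this x.2, rfl⟩

theorem Adm.fm (L : Lev j F H) (A : Adm j F H M) [CFF k M] :
    Fm (im (io M) H) (im (io M) (Fi F)) (Yj M j) :=
  ⟨im_mono L.le, fun _ ⟨_, l, r⟩ _ ⟨_, l', r'⟩ => ⟨_, L.nz l l', (r.inv.mul r').mul r⟩, L.fin A.le,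
    fun _ ⟨_, l, r⟩ => (r.res fun _ => rfl).trans (Fi.res l),
    fun _ ⟨θ, l, r⟩ P y => L.yj (A.le L.jm) l r y,
    fun n ⟨ν, l, r⟩ P y e => sl_ext fun x => Subtype.ext ((r x).trans (A.fr ν l n r P y e x x.2))⟩

theorem Adm.dn (L : Lev j F H) (A : Adm j F H M) (h : M ≤ M') (g : M'.FG) {ν} (l : ν ∈ Fi F) {n}
    (r : Rs (io M') ν n) {P} (y : P ∈ Yj M' j) (e : n • P = P) : ν ∈ Fi M := by
  have := A.cff L
  have := L.cff (h (A.le L.jm)) g
  obtain ⟨π, C, c, -⟩ := cov_le h L.tr (A.le L.jm)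
  have r' := A.st.rs (L.le l)
  exact A.fr ν l _ r' _ ((c P).1 y) (by rw [← C.sm (r'.inc h r), e])

theorem Adm.sup (L : Lev j F H) (A : Adm j F H M) (A' : Adm j F H M') : Adm j F H (M ⊔ M') :=
  have g := fg_sup A.fg A'.fg
  ⟨g, A.le.trans le_sup_left, fun θ l => sup_le (fun _ e => (le_sup_left : M ≤ _) (A.st θ l e))
    fun _ e => (le_sup_right : M' ≤ _) (A'.st θ l e), fun ν l n r P y e =>
      (mem_fi (Fi.res l)).2 (sup_le (A.dn L le_sup_left g l r y e) (A'.dn L le_sup_right g l r y e))⟩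

/-- normal closure -/
theorem Adm.nc (L : Lev j F H) (L' : Lev j F' H') (A₀ : Adm j F H M₀) (h₀ : F' ≤ M₀)
    (A : Adm j F' H' M) {I : Type} [Finite I] {r : I → SL k Ω} (mem : ∀ i, r i ∈ H)
    (ex : ∀ x ∈ H, ∃ i, (r i)⁻¹ * x ∈ H') : ∃ M', Adm j F H M' ∧ M₀ ≤ M' ∧ M ≤ M' := by
  have g := fg_sup A₀.fg (fg_iSup fun i => cm_fg (θ := (r i)⁻¹) A.fg)
  have le : ∀ i, cm (r i)⁻¹ M ≤ M₀ ⊔ ⨆ i, cm (r i)⁻¹ M := fun i =>
    (le_iSup (fun i => cm (r i)⁻¹ M) i).trans le_sup_right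
  have st : Stb (M₀ ⊔ ⨆ i, cm (r i)⁻¹ M) H := fun θ l => sup_le (fun _ e => (le_sup_left : M₀ ≤ _)
    (A₀.st θ l e)) (iSup_le fun i x e => by
      obtain ⟨i', h⟩ := ex _ (mul_mem l (mem i))
      have := A.st.ap h (mem_cm.1 e)
      rw [sl_mul, sl_mul, sl_inv] at this
      exact le i' this)
  have lm : M ≤ M₀ ⊔ ⨆ i, cm (r i)⁻¹ M := fun x l => by
    obtain ⟨i, h⟩ := ex 1 (one_mem _)
    exact le i (A.st _ (by simpa using h) l)
  refine ⟨_, ⟨g, A₀.le.trans le_sup_left, st, fun ν l n s P y e => ?_⟩, le_sup_left, lm⟩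
  have a := A₀.dn L le_sup_left g l s y e
  refine (mem_fi (Fi.res l)).2 (sup_le a (iSup_le fun i x l' => ?_))
  have s' := st.rs (mem i)
  have := A.dn L' lm g (ν := (r i)⁻¹ * ν * r i) (fun x e => by
    rw [sl_mul, sl_mul, a _ (A₀.st.ap (mem i) (h₀ e)), sl_inv']) ((s'.inv.mul s).mul s')
    (L.yj (lm (A.le L'.jm)) (inv_mem (mem i)) s'.inv y) (by simp only [mul_smul, smul_inv_smul, e])
    (((r i)⁻¹).1 x) l'
  rw [sl_mul, sl_mul, sl_inv] at this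
  exact RingEquiv.injective _ this

variable [IsAlgClosed Ω] [CharZero k]

/-- admissible fields are unramified and Galois -/
theorem Adm.gal (L : Lev j F H) (A : Adm j F H M) [CFF k M] :
    (∀ P ∈ Yj M j, ∃ x : M, ↑x ∈ F ∧ ord P x = 1) ∧ ∀ P Q : Plk k M,
      (∀ x : M, ↑x ∈ F → (x ∈ P.1 ↔ x ∈ Q.1)) → ∃ n ∈ im (io M) (Fi F), n • P = Q := by
  have B := A.fm L
  have := B.fin
  obtain ⟨K, _, _, _, h0, h1, -⟩ := ex_fix B.k1
  obtain ⟨C, t⟩ := B.cv h1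
  have f : ∀ x : K, ((x : M) : Ω) ∈ F := fun x => L.mem fun θ l =>
    (A.st.rs (L.le l) x).symm.trans (congrArg _ ((h0 _).1 x.2 _ (A.st.mem L.le l)))
  refine ⟨fun P y => ?_, fun P Q e => t P Q (pl_ext fun x => e _ (f x))⟩
  obtain ⟨x, -, e⟩ := exists_unif (down K P)
  exact ⟨x, f x, (C.ur P y x).trans e⟩

omit [IsAlgClosed Ω] [CharZero k] in
/-- unramified fields are admissible -/
theorem Adm.of_ord (L : Lev j F H) [CFF k M] (le : F ≤ M) (st : Stb M H')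
    (h : ∀ P ∈ Yj M j, ∃ x : M, ↑x ∈ F ∧ ord P x = 1) : Adm j F H' M := by
  refine ⟨fg_of_cff, le, st, fun ν l n r P y e x l' => ?_⟩
  have := L.fin le
  obtain ⟨K, _, _, _, h0, -, h1⟩ := ex_fix (N := im (io M) (Fi F)) fun _ ⟨_, l, r⟩ =>
    (r.res fun _ => rfl).trans (Fi.res l)
  obtain ⟨σ, rfl⟩ := h1 n ⟨ν, l, r⟩
  obtain ⟨u, l, e'⟩ := h P y
  have : σ ∈ inertia K P := e
  rw [(ram_eq_one_iff P).1 (ram_eq_one_of_exists (z := ⟨u, (h0 u).2 fun _ ⟨_, l', r⟩ =>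
    Subtype.ext ((r u).trans (l' _ l))⟩) e'), Subgroup.mem_bot] at this
  subst this
  exact (r ⟨x, l'⟩).symm

/-- towers of admissible fields -/
theorem Adm.cov (L : Lev j F H) (A : Adm j F H M) (A' : Adm j F H M') [CFF k M] [CFF k M']
    (h : M ≤ M') : ∃ π, Cov (inc h) (1 : k ≃+* k) π (Yj M j) (Yj M' j) ∧ ∀ P Q,
      ∀ n ∈ im (io M) (Fi F), n • π P = π Q → ∃ n' ∈ im (io M') (Fi F), n' • P = Q := by
  obtain ⟨π, C, c, u⟩ := cov_le h L.tr (A.le L.jm)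
  obtain ⟨g1, g2⟩ := A'.gal L
  refine ⟨π, ⟨C.hs, C.mem, C.fin, C.sur, c, fun P y => ?_⟩, fun P Q n ⟨ν, l, r⟩ e => g2 P Q
    fun x l' => ?_⟩
  · obtain ⟨x, l, e⟩ := g1 P y
    exact u P ⟨x, A.le l⟩ e
  · have := sm_mem n (π P) ⟨x, A.le l'⟩
    rw [e, show n.1 ⟨x, A.le l'⟩ = ⟨x, A.le l'⟩ from Subtype.ext ((r _).trans (l _ l')),
      ← C.mem, ← C.mem] at this
    exact this.symm

/-- the order of `x` is divisible by `m` on the places which are finite for `j` -/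
def Unt (j : Ω) (F : IntermediateField k Ω) (m : ℕ) (x : Ω) : Prop :=
  ∀ [CFF k F], ∀ P ∈ Yj F j, ∀ y : F, ↑y = x → (m : ℤ) ∣ ord P y

omit [IsAlgClosed k] [IsAlgClosed Ω] [CharZero k] in
theorem Unt.of_dm {m : ℕ} (l : j ∈ F) (h : Dm k j x) (h' : Dm k j x⁻¹) : Unt j F m x :=
  fun P y u e => by
    have a := ord_nonneg_of_mem P (h.sub l y u e)
    have b := ord_nonneg_of_mem P (h'.sub l y u⁻¹ (e ▸ rfl))
    rw [ord_inv] at b
    exact (show ord P u = 0 by omega) ▸ dvd_zero _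

/-- adjunction of a root -/
theorem Adm.root (L : Lev j F H) (A : Adm j F H M) {m : ℕ} (m0 : m ≠ 0) (x0 : x ≠ 0)
    (h : ∀ θ ∈ H, θ.1 (x ^ m) = x ^ m) (u : Unt j F m (x ^ m)) : Adm j F H (M ⊔ k⟮x⟯) := by
  have g := fg_sup A.fg (fg_adjoin_of_finite (F := k) (Set.finite_singleton x))
  have l0 : x ∈ M ⊔ k⟮x⟯ := (le_sup_right : k⟮x⟯ ≤ _) (mem_adjoin_simple_self k x)
  have le := A.le.trans (le_sup_left (b := k⟮x⟯))
  refine ⟨g, le, fun θ l => sup_le (fun _ e => (le_sup_left : M ≤ _) (A.st θ l e))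
    (adjoin_simple_le_iff.2 ?_), fun ν l n r P y e => (mem_fi (Fi.res l)).2
      (sup_le (A.dn L le_sup_left g l r y e) (adjoin_simple_le_iff.2 ?_))⟩
  · obtain ⟨c, e⟩ := minpoly.mem_range_of_degree_eq_one k (θ.1 x / x)
      (IsAlgClosed.degree_eq_one_of_irreducible k (minpoly.irreducible (IsIntegral.of_pow
        (Nat.pos_of_ne_zero m0) (by
          rw [div_pow, ← map_pow, h θ l, div_self (pow_ne_zero _ x0)]; exact isIntegral_one))))
    rw [mem_cm, (eq_div_iff x0).1 e |>.symm]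
    exact mul_mem (IntermediateField.algebraMap_mem _ c) l0
  have := L.adm.cff L
  have := L.cff (le L.jm) g
  let _ := (inc le).toAlgebra
  have : IsScalarTower k F (M ⊔ k⟮x⟯ :) := .of_algebraMap_eq fun _ => rfl
  have : FiniteDimensional F (M ⊔ k⟮x⟯ :) := finite_of_transcendental (k := k) (x := ⟨j, L.jm⟩)
    ((transcendental_algebraMap_iff (io F).injective).1 L.tr)
  have := inertia_root (K := F) (Nat.cast_ne_zero.2 m0) (P := P) (y := ⟨x, l0⟩)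
    (σ := AlgEquiv.ofRingEquiv (f := n.1) fun z => Subtype.ext ((r _).trans (l _ z.2))) e
    (fun e => x0 (congrArg (·.1) e)) (f := ⟨x ^ m, L.mem fun θ l => h θ (L.le l)⟩) rfl
    (u _ ((mem_yj L.jm).2 ((mem_yj (le L.jm)).1 y)) _ rfl)
  exact (r ⟨x, l0⟩).symm.trans (congrArg (·.1) this)

end Vale.Agent.P014T.Ts
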