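import Vale.Agent.P297.H572.Half.Zero
import Mathlib.RingTheory.MvPolynomial.Homogeneous
import Mathlib.RingTheory.Algebraic.Integral
import Mathlib.LinearAlgebra.FreeModule.PID
import Mathlib.RingTheory.Norm.Basic
import Mathlib.Algebra.Polynomial.Basis
import Mathlib.RingTheory.AlgebraicIndependent.AlgebraicClosure

/-! # P014 T: the theorem of Tsen -/

open MvPolynomial Module Submodule
open scoped Polynomial IntermediateField

noncomputable section

namespace Vale.Agent.P014T.Ts

variable {k O σ : Type} [Field k] [IsAlgClosed k] [CommRing O] [Algebra k O] [Fintype σ]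

theorem sub_zero (W : Submodule k O) [Module.Finite k W] (h : finrank k W < Fintype.card σ)
    {g : MvPolynomial σ O} (hg : g ∈ coeffsIn σ W) (h0 : coeff 0 g = 0) :
    ∃ x : σ → k, x ≠ 0 ∧ eval (fun i => algebraMap k O (x i)) g = 0 := by
  classical
  let b := finBasis k W
  obtain ⟨x, x0, hx⟩ := P297.H572.Half.common_zero (τ := Fin (finrank k W)) (by simpa using h)
    (fun l => ∑ μ ∈ g.support, monomial μ (b.repr ⟨_, hg μ⟩ l)) fun l => by
      simp [constantCoeff_monomial, h0]
  have : (∑ μ ∈ g.support, (∏ i, x i ^ μ i) • ⟨_, hg μ⟩ : W) = 0 := b.ext_elem fun l => by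
    simp only [map_sum, map_smul]
    simpa [aeval_monomial, Finsupp.prod_fintype, mul_comm] using hx l
  exact ⟨x, x0, by simpa [eval_eq', Algebra.smul_def, mul_comm] using congrArg Subtype.val this⟩

theorem ev {O σ τ : Type} [CommRing O] (y : τ → O) (l : σ → MvPolynomial τ O)
    (f : MvPolynomial σ O) : eval y (aeval l f) = eval (fun i => eval y (l i)) f := by
  induction f using MvPolynomial.induction_on <;> simp_all

theorem free_zero [Algebra k[X] O] [IsScalarTower k k[X] O] {e : ℕ} (w : Basis (Fin e) k[X] O)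
    (he : 0 < e) {f : MvPolynomial σ O} {d : ℕ} (hf : f.IsHomogeneous d) (d0 : d ≠ 0)
    (hd : d < Fintype.card σ) : ∃ x : σ → O, x ≠ 0 ∧ eval x f = 0 := by
  classical
  let B := (Polynomial.basisMonomials k).smulTower w
  let V : ℕ → Submodule k O := fun s => span k (B '' {p | p.1 < s})
  have mono : Monotone V := fun a b h => span_mono (Set.image_mono fun p hp => lt_of_lt_of_le hp h)
  obtain ⟨r, hr⟩ : ∃ r, ∀ y ∈ f.coeffs ∪ Finset.univ.image₂ (w · * w ·) Finset.univ, y ∈ V r := by
    choose n hn using fun y : O => (show ∃ n, y ∈ V n from ⟨(B.repr y).support.sup (·.1) + 1,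
      B.mem_span_image.2 fun p hp => Nat.lt_succ_of_le (Finset.le_sup (f := Prod.fst) hp)⟩)
    exact ⟨Finset.sup _ n, fun y hy => mono (Finset.le_sup hy) (hn y)⟩
  have sh : ∀ i, ∀ y ∈ V r, (Polynomial.monomial i (1 : k)) • y ∈ V (i + r) := fun i y hy => by
    induction hy using span_induction with
    | mem _ h =>
      obtain ⟨p, hp, rfl⟩ := h
      exact subset_span ⟨(i + p.1, p.2), Nat.add_lt_add_left hp i, by
        simp [B, smul_smul, Polynomial.monomial_mul_monomial]⟩
    | zero => simp
    | add _ _ _ _ a b => simpa using add_mem a b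
    | smul c _ _ a => rw [smul_comm]; exact smul_mem _ c a
  have mul : ∀ a b, V a * V b ≤ V (a + b + r) := fun a b => by
    rw [span_mul_span, span_le]
    rintro _ ⟨_, ⟨p, hp, rfl⟩, _, ⟨q, hq, rfl⟩, rfl⟩
    simpa [B, smul_smul, Polynomial.monomial_mul_monomial, add_comm] using mono
      (show p.1 + q.1 + r ≤ a + b + r by have : p.1 < a := hp; have : q.1 < b := hq; omega)
      (sh _ _ (hr (w p.2 * w q.2) (by simp)))
  let s := r + d * r + 1
  let u : Fin s × Fin e → O := fun p => B (p.1, p.2)
  let l : σ → MvPolynomial (σ × Fin s × Fin e) O := fun i => ∑ p, C (u p) * X (i, p)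
  let P := fun n => coeffsIn (σ × Fin s × Fin e) (V (r + n * (s + r)))
  have p1 : ∀ i a n, ∀ p ∈ P n, p * l i ^ a ∈ P (n + a) := fun i a n p hp => by
    induction a with
    | zero => simpa using hp
    | succ a ih =>
      have := mul_mem_mul ih (show l i ∈ coeffsIn _ (V s) from sum_mem fun p _ =>
        mul_X_mem_coeffsIn.2 (C_mem_coeffsIn.2 (subset_span ⟨_, p.1.2, rfl⟩)))
      rw [← coeffsIn_mul, mul_assoc, ← pow_succ] at this
      exact fun μ => mono (le_of_eq (by ring)) (mul _ _ (this μ))
  have p2 : ∀ (μ : σ →₀ ℕ) (t : Finset σ), ∀ p ∈ P 0, p * ∏ i ∈ t, l i ^ μ i ∈ P (∑ i ∈ t, μ i) :=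
    fun μ t p hp => by
      induction t using Finset.induction_on with
      | empty => simpa using hp
      | insert i t hi ih =>
        rw [Finset.prod_insert hi, Finset.sum_insert hi, mul_comm (l i ^ _), ← mul_assoc, add_comm]
        exact p1 _ _ _ _ ih
  have fs : ∀ n, V n = span k (Set.range fun p : Fin n × Fin e => B (p.1, p.2)) := fun n =>
    congrArg (span k) (Set.ext fun y => ⟨fun ⟨p, hp, e⟩ => ⟨(⟨p.1, hp⟩, p.2), e⟩,
      fun ⟨p, e⟩ => ⟨(p.1, p.2), p.1.2, e⟩⟩)
  have : Module.Finite k (V (r + d * (s + r))) := fs _ ▸ Module.Finite.span_of_finite k (Set.finite_range _)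
  obtain ⟨x, x0, hx⟩ := sub_zero (σ := σ × Fin s × Fin e) (V (r + d * (s + r))) (g := aeval l f)
    (by
      rw [fs]
      refine (finrank_range_le_card _).trans_lt ?_
      simp only [Fintype.card_prod, Fintype.card_fin, ← mul_assoc]
      refine Nat.mul_lt_mul_of_pos_right (lt_of_lt_of_le ?_ (Nat.mul_le_mul_right s hd)) he
      simp only [s, Nat.succ_eq_add_one]
      nlinarith)
    (by
      rw [aeval_def, eval₂_eq']
      refine sum_mem fun μ hμ => ?_
      rw [← show ∑ i, μ i = d by
        simpa [Finsupp.weight_apply, Finsupp.sum_fintype] using hf (mem_support_iff.1 hμ)]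
      exact p2 μ _ _ (C_mem_coeffsIn.2 (by
        simpa using hr _ (Finset.mem_union_left _ (coeff_mem_coeffs μ (mem_support_iff.1 hμ))))))
    (by
      rw [← constantCoeff_eq, ← eval_zero, ev]
      simpa [l, constantCoeff_eq] using hf.coeff_eq_zero (d := 0) (by simpa using d0.symm))
  refine ⟨fun i => ∑ p, x (i, p) • u p, fun h => x0 (funext fun q => ?_), ?_⟩
  · exact Fintype.linearIndependent_iff.1 (B.linearIndependent.comp
      (fun p : Fin s × Fin e => (p.1.1, p.2)) (Fin.val_injective.prodMap fun _ _ => id)) _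
      (congrFun h q.1) q.2
  · rw [ev] at hx
    simpa [l, Algebra.smul_def, mul_comm] using hx

/-- forms with more variables than their degree have a zero -/
def C1 (F : Type) [Field F] : Prop := ∀ (σ : Type) [Fintype σ] (f : MvPolynomial σ F) (d : ℕ),
  f.IsHomogeneous d → d ≠ 0 → d < Fintype.card σ → ∃ x : σ → F, x ≠ 0 ∧ eval x f = 0

variable {F : Type} [Field F] [Algebra k F]

theorem tsen0 (k : Type) [Field k] [IsAlgClosed k] [Algebra k F] [Algebra k[X] F]
    [IsScalarTower k k[X] F] [FaithfulSMul k[X] F] [Algebra.IsAlgebraic k[X] F] : C1 F :=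
  fun σ _ f d hf d0 hd => by
    classical
    obtain ⟨D, D0, hD⟩ := Algebra.IsAlgebraic.exists_integral_multiples k[X] f.coeffs
    let O := Algebra.adjoin k[X] ((D • ·) '' (f.coeffs : Set F))
    have : Module.Finite k[X] O := Algebra.finite_adjoin_of_finite_of_isIntegral
      (f.coeffs.finite_toSet.image _) (by rintro _ ⟨c, hc, rfl⟩; exact hD c hc)
    obtain ⟨g, hg⟩ : C (algebraMap _ F D) * f ∈ Set.range (map (algebraMap O F)) :=
      mem_range_map_iff_coeffs_subset.2 fun y hy => by
        obtain ⟨μ, h, rfl⟩ := mem_coeffs_iff.1 hy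
        rw [mem_support_iff, coeff_C_mul] at h
        exact ⟨⟨_, Algebra.subset_adjoin ⟨_, coeff_mem_coeffs μ (right_ne_zero_of_mul h), rfl⟩⟩,
          by simp [Algebra.smul_def]⟩
    obtain ⟨x, x0, hx⟩ := free_zero (k := k) (finBasis k[X] O) finrank_pos (f := g)
      (.of_map (FaithfulSMul.algebraMap_injective O F) (hg ▸ hf.C_mul _)) d0 hd
    refine ⟨fun i => x i, fun h => x0 (funext fun i => Subtype.ext (congrFun h i)), ?_⟩
    simpa [map_eval, hg, D0, Function.comp_def] using congrArg (algebraMap O F) hx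

/-- **Tsen** -/
theorem tsen {t : F} (ht : Transcendental k t) (ha : ∀ x : F, IsAlgebraic k⟮t⟯ x) : C1 F := by
  let _ : Algebra k[X] F := (Polynomial.aeval t : k[X] →ₐ[k] F).toAlgebra
  have : IsScalarTower k k[X] F := .of_algHom _
  have : FaithfulSMul k[X] F :=
    (faithfulSMul_iff_algebraMap_injective _ _).2 (transcendental_iff_injective.1 ht)
  have : Algebra.IsAlgebraic k[X] F := ⟨fun x =>
    (IntermediateField.isAlgebraic_adjoin_iff.1 (ha x)).of_ringHom_of_comp_eq
      (Polynomial.algEquivOfTranscendental k t ht) (RingHom.id F)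
      (AlgEquiv.surjective _) (fun _ _ => id) (RingHom.ext fun p => by simp [RingHom.algebraMap_toAlgebra])⟩
  exact tsen0 k

/-- norms are onto -/
theorem C1.norm (h : C1 F) (L : Type) [Field L] [Algebra F L] [FiniteDimensional F L] (b : F) :
    ∃ x : L, Algebra.norm F x = b := by
  classical
  let w := finBasis F L
  let M : Matrix _ _ (MvPolynomial (Option (Fin (finrank F L))) F) :=
    fun r c => ∑ i, C (Algebra.leftMulMatrix w (w i) r c) * X (some i)
  obtain ⟨x, x0, hx⟩ := h _ (M.det - C b * X none ^ finrank F L) (finrank F L)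
    (.sub (by
      rw [Matrix.det_apply']
      refine .sum _ _ _ fun σ _ => ?_
      simpa using (isHomogeneous_C _ ((Equiv.Perm.sign σ : ℤ) : F)).mul (.prod Finset.univ
        (fun i => M (σ i) i) (fun _ => 1) fun i _ => by
          exact .sum _ _ _ fun _ _ => isHomogeneous_C_mul_X _ _))
      (isHomogeneous_C_mul_X_pow _ _ _)) finrank_pos.ne' (by simp)
  have e : Algebra.norm F (∑ i, x (some i) • w i) = b * x none ^ finrank F L := by
    rw [map_sub, sub_eq_zero, RingHom.map_det] at hx
    rw [Algebra.norm_eq_matrix_det w, ← show _ = b * x none ^ finrank F L by simpa using hx]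
    refine congrArg _ (Matrix.ext fun r c => ?_)
    show _ = eval x (M r c)
    simp [M, Matrix.sum_apply, mul_comm]
  have n : x none ≠ 0 := fun n => x0 (funext fun i => by
    rw [n, zero_pow finrank_pos.ne', mul_zero, Algebra.norm_eq_zero_iff] at e
    cases i
    exacts [n, Fintype.linearIndependent_iff.1 w.linearIndependent _ e _])
  exact ⟨algebraMap F L (x none)⁻¹ * _, by
    rw [map_mul, e, Algebra.norm_algebraMap, inv_pow]; field_simp⟩

end Vale.Agent.P014T.Ts
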